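import Vale.Agent.P214.ODEW.Inst
import Vale.Agent.P214.ABS.Defs

/-!
# P214, block ODEW: the differential inequalities of one window

For an exact minimal reference graph `w` and a stationary measure in Fermi coordinates, with
`κ t ≤ eps0`, small slope (`Slp`), slab height `≤ 1`, and `|u| ≤ σ t` on `{|XX| < t}`:
* `CylF.err_height` : `|t HF' - 2 jF| ≤ C κ t HF + C σ² (XeF + XuF)`;
* `CylF.abs_jF_sub_gF_le` : `|jF - gF| ≤ C (κ t)² HF + C σ κ t gF`;
* `CylF.err_radial`, `CylF.err_bulk` : the errors of the exact ODE of the area excess;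
* `CylF.area_ineq` : the area inequality before the rate lemma is used;
* `CylF.ode` : everything in the form of `ABS.Ode`.
-/

open Set Filter Topology MeasureTheory Metric
open scoped RealInnerProductSpace ContDiff

set_option linter.all false

namespace Vale.Agent.P214.ODEW

open FV FM ODE

/-! ### Fermi coordinates -/

variable {E : Type*} [NormedAddCommGroup E] [InnerProductSpace ℝ E] [FiniteDimensional ℝ E]
  [MeasurableSpace E] [BorelSpace E]

/-- scaled tilt energy of the ball `{|XX| < t}` -/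
noncomputable def XeF (m : ℕ) (T : Submodule ℝ E) (w : E → E) (z : E) (P : E → E →L[ℝ] E)
    (ν : Measure E) (t : ℝ) : ℝ :=
  t ^ (2 - (m : ℤ)) * ∫ Y in {Y | aX T w z Y < t ^ 2}, eP T w P Y ∂ν

/-- scaled height of the ball `{|XX| < t}` -/
noncomputable def XuF (m : ℕ) (T : Submodule ℝ E) (w : E → E) (z : E)
    (ν : Measure E) (t : ℝ) : ℝ :=
  t ^ (-(m : ℤ)) * ∫ Y in {Y | aX T w z Y < t ^ 2}, ‖co T Y‖ ^ 2 ∂ν

section

variable {m Q : ℕ} {T : Submodule ℝ E} {w : E → E} {ε κ h₁ : ℝ} {G : Set E} {h : ℝ}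
  {ν : Measure E} {P : E → E →L[ℝ] E} {z : E} {k k' K : ℝ → ℝ} {t R B σ : ℝ}

lemma Xe_fld : Xe (fld m T w h₁ z t P) ν m t = XeF m T w z P ν t := rfl

lemma Xu_fld : Xu (fld m T w h₁ z t P) ν m t = XuF m T w z ν t := rfl

lemma Hf_fld : Hf (fld m T w h₁ z t P) ν m k t = HF m T w z k ν t := rfl

lemma Jf_fld : Jf (fld m T w h₁ z t P) ν m K t = jF m T w h₁ z K P ν t := rfl

lemma Gf_fld : Gf (fld m T w h₁ z t P) ν m K t = gF m T w z K P ν t := rfl

lemma Bf_fld : Bf (fld m T w h₁ z t P) ν m k t = bF m T w h₁ z k P ν t := rfl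

variable (H : Adm T w ε κ h₁) (hC : CylF m T w h₁ G h ν P) (hmin : MinimalOver T w G)
  (hh : h ≤ 1) (hκt : κ * t ≤ eps0) (hs : Slp T w z κ t) (hG : BallIn T G z R) (hk : KB k k' K B) (ht : 0 < t)

include H hC hmin hh hκt hs hG hk ht

/-- **Height error.** -/
theorem CylF.err_height (htR : t < R) (hσ : 0 ≤ σ) (hσ1 : σ ≤ 1)
    (hu : ∀ᵐ Y ∂ν, aX T w z Y < t ^ 2 → ‖co T Y‖ ≤ σ * t) :
    DifferentiableAt ℝ (HF m T w z k ν) t ∧
    |t * deriv (HF m T w z k ν) t - 2 * jF m T w h₁ z K P ν t| ≤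
      cB m (Module.finrank ℝ E) * (3 * m + 9) * (κ * t) * HF m T w z k ν t +
      B * (2 + 8 * cB m (Module.finrank ℝ E)) * σ ^ 2 *
        (XeF m T w z P ν t + XuF m T w z ν t) := by
  have hR : 0 ≤ R := ht.le.trans htR.le
  have hGt : BallIn T G z t := fun x hx hx2 => hG x hx (hx2.trans htR.le)
  have hb := CylF.bd H hC hmin hh ht hκt hs hGt
  have hκ := H.ref.knn
  have hode := hC.height_ode H hk.kern ht htR hG
  refine ⟨hode.differentiableAt, ?_⟩
  rw [hode.deriv]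
  have key := hb.err_height hk ht hσ hσ1 hu
  rw [Hf_fld, Xe_fld, Xu_fld] at key
  refine le_trans (le_of_eq ?_) key
  have hrh := (H.contDiff_rh z).continuous
  have hxg := H.ref.contDiff_xg z
  have hom := H.ref.contDiff_om
  have one_le : (1 : WithTop ℕ∞) ≤ ∞ := WithTop.coe_le_coe.2 le_top
  have gvp := hC.gd_vp H (a := aX T w z) (R := R) (z := z)
  have gom := (hC.gd H.ref hR hG hom.continuous).norm.pow 2
  have gtr := hC.gd_trJ H hR hG (hxg.of_le one_le)
  have g2 := hC.gd_innerP H hR hG hom.continuous (hxg.continuous.sub hrh)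
  have gq := gom.mul ((hC.gd_perp H hR hG hrh).inner (hC.gd_perp H hR hG hxg.continuous))
  have gm' : Gd (aX T w z) ν R (fun Y => (m : ℝ)) := Gd.const _
  have i1 := hC.intg H (gom.mul (gtr.sub (gm'.mul gvp))) hk.kern.pk.continuous hk.kern.pk.zero
    ht htR.le
  have i2 := hC.intg H g2 hk.kern.pk.continuous hk.kern.pk.zero ht htR.le
  have i3 := hC.intg H gq hk.kern.pk.cont (fun s hs => hk.kern.pk.zero' hs) ht htR.le
  have e1 : ∫ Y, (k (aX T w z Y / t ^ 2) * (‖om T w Y‖ ^ 2 *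
      (trJ T w h₁ P (xg T w z) Y - m * vp T w z Y)) +
      2 * (k (aX T w z Y / t ^ 2) * ⟪om T w Y, P Y (xg T w z Y - rh T w h₁ z Y)⟫) -
      2 * k' (aX T w z Y / t ^ 2) / t ^ 2 * (‖om T w Y‖ ^ 2 *
        ⟪rh T w h₁ z Y - P Y (rh T w h₁ z Y), xg T w z Y - P Y (xg T w z Y)⟫)) ∂ν =
      kI T w z ν k (fun Y => ‖om T w Y‖ ^ 2 * (trJ T w h₁ P (xg T w z) Y - m * vp T w z Y)) t +
        2 * kI T w z ν k (fun Y => ⟪om T w Y, P Y (xg T w z Y - rh T w h₁ z Y)⟫) t -
        (2 / t ^ 2) * kI T w z ν k' (fun Y => ‖om T w Y‖ ^ 2 *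
          ⟪rh T w h₁ z Y - P Y (rh T w h₁ z Y), xg T w z Y - P Y (xg T w z Y)⟫) t := by
    have i2' : Integrable (fun Y => 2 * (k (aX T w z Y / t ^ 2) *
        ⟪om T w Y, P Y (xg T w z Y - rh T w h₁ z Y)⟫)) ν := i2.const_mul 2
    have i3' : Integrable (fun Y => (2 / t ^ 2) * (k' (aX T w z Y / t ^ 2) * (‖om T w Y‖ ^ 2 *
        ⟪rh T w h₁ z Y - P Y (rh T w h₁ z Y), xg T w z Y - P Y (xg T w z Y)⟫))) ν :=
      i3.const_mul _
    have i12 : Integrable (fun Y => k (aX T w z Y / t ^ 2) * (‖om T w Y‖ ^ 2 *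
        (trJ T w h₁ P (xg T w z) Y - m * vp T w z Y)) + 2 * (k (aX T w z Y / t ^ 2) *
        ⟪om T w Y, P Y (xg T w z Y - rh T w h₁ z Y)⟫)) ν := i1.add i2'
    unfold kI
    rw [← integral_const_mul 2, ← integral_const_mul (2 / t ^ 2)]
    rw [← integral_add i1 i2', ← integral_sub i12 i3']
    refine integral_congr_ae (Eventually.of_forall fun Y => ?_)
    simp only []
    ring
  have e2 : t * (t⁻¹ * (2 * jF m T w h₁ z K P ν t + t ^ (-(m : ℤ)) * (
        kI T w z ν k (fun Y => ‖om T w Y‖ ^ 2 * (trJ T w h₁ P (xg T w z) Y - m * vp T w z Y)) t +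
        2 * kI T w z ν k (fun Y => ⟪om T w Y, P Y (xg T w z Y - rh T w h₁ z Y)⟫) t -
        (2 / t ^ 2) * kI T w z ν k' (fun Y => ‖om T w Y‖ ^ 2 *
          ⟪rh T w h₁ z Y - P Y (rh T w h₁ z Y), xg T w z Y - P Y (xg T w z Y)⟫) t))) -
      2 * jF m T w h₁ z K P ν t = t ^ (-(m : ℤ)) * (
        kI T w z ν k (fun Y => ‖om T w Y‖ ^ 2 * (trJ T w h₁ P (xg T w z) Y - m * vp T w z Y)) t +
        2 * kI T w z ν k (fun Y => ⟪om T w Y, P Y (xg T w z Y - rh T w h₁ z Y)⟫) t -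
        (2 / t ^ 2) * kI T w z ν k' (fun Y => ‖om T w Y‖ ^ 2 *
          ⟪rh T w h₁ z Y - P Y (rh T w h₁ z Y), xg T w z Y - P Y (xg T w z Y)⟫) t) := by
    rw [← mul_assoc, mul_inv_cancel₀ ht.ne', one_mul]; ring
  rw [e2, ← e1]
  rfl

/-- `|jF - gF| ≤ C (κ t)² HF + C σ κ t gF` -/
theorem CylF.abs_jF_sub_gF_le (htR : t < R) (hσ : 0 ≤ σ)
    (hu : ∀ᵐ Y ∂ν, aX T w z Y < t ^ 2 → ‖co T Y‖ ≤ σ * t) :
    |jF m T w h₁ z K P ν t - gF m T w z K P ν t| ≤
      2 * B * cB m (Module.finrank ℝ E) * (κ * t) ^ 2 * HF m T w z k ν t +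
      cB m (Module.finrank ℝ E) * σ * (κ * t) * gF m T w z K P ν t := by
  have hR : 0 ≤ R := ht.le.trans htR.le
  have hGt : BallIn T G z t := fun x hx hx2 => hG x hx (hx2.trans htR.le)
  have hb := CylF.bd H hC hmin hh ht hκt hs hGt
  exact hb.abs_outer_sub_tilt_le hk ht hσ hu

/-- the radial error -/
theorem CylF.err_radial (htR : t < R) :
    |t ^ (-(m : ℤ)) * kI T w z ν k (radF T w h₁ z t P) t - bF m T w h₁ z k P ν t| ≤
      2 * cB m (Module.finrank ℝ E) * (κ * t) * √(HF m T w z k ν t * bF m T w h₁ z k P ν t) +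
      2 * cB m (Module.finrank ℝ E) * B ^ 2 * (κ * t) ^ 2 *
        (HF m T w z k ν t + gF m T w z K P ν t) := by
  have hR : 0 ≤ R := ht.le.trans htR.le
  have hGt : BallIn T G z t := fun x hx hx2 => hG x hx (hx2.trans htR.le)
  have hb := CylF.bd H hC hmin hh ht hκt hs hGt
  exact hb.radial_le hk ht

/-- the kernel tilt is bounded by the energy -/
theorem CylF.gF_le (htR : t < R) : gF m T w z K P ν t ≤ B * XeF m T w z P ν t := by
  have hR : 0 ≤ R := ht.le.trans htR.le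
  have hGt : BallIn T G z t := fun x hx hx2 => hG x hx (hx2.trans htR.le)
  have hb := CylF.bd H hC hmin hh ht hκt hs hGt
  exact hb.Gf_le hk ht

/-- the kernel mean of `|u|²` with the kernel `K`, as it occurs in the rate lemma -/
theorem CylF.kI_K_un_le (htR : t < R) :
    t ^ (-(m : ℤ)) * kI T w z ν K (fun Y => ‖co T Y‖ ^ 2) t ≤ 2 * B * HF m T w z k ν t := by
  have hR : 0 ≤ R := ht.le.trans htR.le
  have hGt : BallIn T G z t := fun x hx hx2 => hG x hx (hx2.trans htR.le)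
  have hb := CylF.bd H hC hmin hh ht hκt hs hGt
  exact hb.kint_un_le hk ht

/-- the bulk error -/
theorem CylF.err_bulk (htR : t < R) (hu : ∀ᵐ Y ∂ν, aX T w z Y < t ^ 2 → ‖co T Y‖ ≤ t) :
    |2 * t ^ (2 - (m : ℤ)) * (kI T w z ν K
          (fun Y => divF m T w h₁ z t P Y - (tau m T w z t Y - eP T w P Y)) t +
          kI T w z ν K (fun Y => tau m T w z t Y * eP T w P Y) t / 2)| ≤
      6 * B * cB m (Module.finrank ℝ E) * (κ * t) * (HF m T w z k ν t + gF m T w z K P ν t) := by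
  have hR : 0 ≤ R := ht.le.trans htR.le
  have hGt : BallIn T G z t := fun x hx hx2 => hG x hx (hx2.trans htR.le)
  have hb := CylF.bd H hC hmin hh ht hκt hs hGt
  have hκ := H.ref.knn
  have key := hb.err_bulk hk ht hu
  rw [Hf_fld, Gf_fld] at key
  refine le_trans (le_of_eq ?_) key
  congr 1
  have gtau : Gd (aX T w z) ν R (tau m T w z t) :=
    hC.gd H.ref hR hG (H.ref.continuous_tau H.eps_le z ht)
  have gdiv : Gd (aX T w z) ν R (divF m T w h₁ z t P) :=
    (hC.gd_trJ H hR hG ((H.ref.contDiff_ze H.eps_le z ht).of_le (WithTop.coe_le_coe.2 le_top))).sub (Gd.const _)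
  have ge := hC.gd_eP H hR hG (z := z)
  have i1 := hC.intg H (gtau.mul ge) hk.kern.pK.continuous hk.kern.pK.zero ht htR.le
  have i2 := hC.intg H (gdiv.sub (gtau.sub ge)) hk.kern.pK.continuous hk.kern.pK.zero ht htR.le
  have e1 : ∫ Y, (t ^ 2 * (K (aX T w z Y / t ^ 2) * (tau m T w z t Y * eP T w P Y)) +
      2 * t ^ 2 * (K (aX T w z Y / t ^ 2) * (trJ T w h₁ P (ze T w z t) Y -
        (m + tau m T w z t Y - eP T w P Y)))) ∂ν =
      t ^ 2 * kI T w z ν K (fun Y => tau m T w z t Y * eP T w P Y) t +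
      2 * t ^ 2 * kI T w z ν K
          (fun Y => divF m T w h₁ z t P Y - (tau m T w z t Y - eP T w P Y)) t := by
    unfold kI
    rw [← integral_const_mul, ← integral_const_mul, ← integral_add (i1.const_mul _)
      (i2.const_mul _)]
    refine integral_congr_ae (Eventually.of_forall fun Y => ?_)
    simp only [divF]
    ring
  have e2 : t ^ (-(m : ℤ)) * ∫ Y, (t ^ 2 * (K (aX T w z Y / t ^ 2) *
      (tau m T w z t Y * eP T w P Y)) +
      2 * t ^ 2 * (K (aX T w z Y / t ^ 2) * (trJ T w h₁ P (ze T w z t) Y -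
        (m + tau m T w z t Y - eP T w P Y)))) ∂ν = 2 * t ^ (2 - (m : ℤ)) * (kI T w z ν K
          (fun Y => divF m T w h₁ z t P Y - (tau m T w z t Y - eP T w P Y)) t +
          kI T w z ν K (fun Y => tau m T w z t Y * eP T w P Y) t / 2) := by
    rw [e1]
    have h6 : t ^ (2 - (m : ℤ)) = t ^ 2 * t ^ (-(m : ℤ)) := by
      rw [sub_eq_add_neg, zpow_add₀ ht.ne']; rfl
    rw [h6]
    ring
  rw [← e2]
  rfl

/-- **Area inequality**, before the rate lemma. -/
theorem CylF.area_ineq (htR : t < R) (hu : ∀ᵐ Y ∂ν, aX T w z Y < t ^ 2 → ‖co T Y‖ ≤ t) :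
    DifferentiableAt ℝ (aF m Q T w z K ν) t ∧
    |t * deriv (aF m Q T w z K ν) t - (2 * (aF m Q T w z K ν t - gF m T w z K P ν t) +
      2 * bF m T w h₁ z k P ν t + 2 * t ^ (2 - (m : ℤ)) *
        FSig m Q T w ν P (fun x => K (aX T w z x / t ^ 2) * tau m T w z t x))| ≤
      4 * cB m (Module.finrank ℝ E) * (κ * t) *
        √(HF m T w z k ν t * bF m T w h₁ z k P ν t) +
      10 * B ^ 2 * cB m (Module.finrank ℝ E) * (κ * t) *
        (HF m T w z k ν t + gF m T w z K P ν t) := by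
  have hGt : BallIn T G z t := fun x hx hx2 => hG x hx (hx2.trans htR.le)
  have hode := CylF.hasDerivAt_aF (Q := Q) hC H hk.kern ht hGt
  refine ⟨hode.differentiableAt, ?_⟩
  rw [hode.deriv]
  have h1 := CylF.err_radial H hC hmin hh hκt hs hG hk ht htR
  have h2 := CylF.err_bulk H hC hmin hh hκt hs hG hk ht htR hu
  have e : t * (t⁻¹ * (2 * (aF m Q T w z K ν t - gF m T w z K P ν t) +
        2 * t ^ (-(m : ℤ)) * kI T w z ν k (radF T w h₁ z t P) t +
        2 * t ^ (2 - (m : ℤ)) * (kI T w z ν K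
          (fun Y => divF m T w h₁ z t P Y - (tau m T w z t Y - eP T w P Y)) t +
          kI T w z ν K (fun Y => tau m T w z t Y * eP T w P Y) t / 2 +
          FSig m Q T w ν P (fun x => K (aX T w z x / t ^ 2) * tau m T w z t x)))) -
      (2 * (aF m Q T w z K ν t - gF m T w z K P ν t) +
      2 * bF m T w h₁ z k P ν t + 2 * t ^ (2 - (m : ℤ)) *
        FSig m Q T w ν P (fun x => K (aX T w z x / t ^ 2) * tau m T w z t x)) =
      2 * (t ^ (-(m : ℤ)) * kI T w z ν k (radF T w h₁ z t P) t - bF m T w h₁ z k P ν t) +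
      2 * t ^ (2 - (m : ℤ)) * (kI T w z ν K
          (fun Y => divF m T w h₁ z t P Y - (tau m T w z t Y - eP T w P Y)) t +
          kI T w z ν K (fun Y => tau m T w z t Y * eP T w P Y) t / 2) := by
    rw [← mul_assoc, mul_inv_cancel₀ ht.ne', one_mul]; ring
  rw [e]
  refine (abs_add_le _ _).trans ?_
  rw [abs_mul 2 (t ^ (-(m : ℤ)) * _ - _), abs_of_pos (show (0:ℝ) < 2 by norm_num)]
  have hH0 := hC.HF_nonneg (z := z) H hk.kern ht
  have hg0 := hC.gF_nonneg (z := z) H hk.kern ht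
  have hκ := H.ref.knn
  have hx0 : 0 ≤ κ * t := by positivity
  have hB1 := hk.one
  have hc0 : 0 ≤ cB m (Module.finrank ℝ E) := by
    have := cT_nonneg
    unfold cB; positivity
  have hκ1 : κ * t ≤ 1 := hκt.trans (eps0_le.trans (by norm_num))
  have h3 : 4 * cB m (Module.finrank ℝ E) * B ^ 2 * (κ * t) ^ 2 *
      (HF m T w z k ν t + gF m T w z K P ν t) ≤ 4 * cB m (Module.finrank ℝ E) * B ^ 2 * (κ * t) *
      (HF m T w z k ν t + gF m T w z K P ν t) := by
    have : (κ * t) ^ 2 ≤ κ * t := by nlinarith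
    gcongr
  have h4 : 6 * B * cB m (Module.finrank ℝ E) * (κ * t) *
      (HF m T w z k ν t + gF m T w z K P ν t) ≤ 6 * B ^ 2 * cB m (Module.finrank ℝ E) * (κ * t) *
      (HF m T w z k ν t + gF m T w z K P ν t) := by
    have : B ≤ B ^ 2 := by nlinarith
    gcongr
  linarith

end

end Vale.Agent.P214.ODEW
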