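import Vale.Agent.P214.ODE.Mono

/-!
# P214, block ODEW: the kernel `k(s) = (1 - s)_+³`, `K(s) = (1 - s)_+⁴ / 8`
-/

open Set Filter Topology

set_option linter.all false

namespace Vale.Agent.P214.ODEW

open Vale.Agent.P214.ODE

/-- a kernel pair with bounds: `k, |k'|, K ≤ B`, `K ≤ B k`, and `K ≥ 1/B` on `[0, 1/4)` -/
structure KB (k k' K : ℝ → ℝ) (B : ℝ) : Prop where
  kern : Kern k k' K
  one : 1 ≤ B
  kB : ∀ s, 0 ≤ s → k s ≤ B
  k'B : ∀ s, 0 ≤ s → |k' s| ≤ B
  KB : ∀ s, 0 ≤ s → K s ≤ B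
  Kk : ∀ s, 0 ≤ s → K s ≤ B * k s
  Klow : ∀ s, 0 ≤ s → s < 1 / 4 → 1 ≤ B * K s

/-- derivative of `(x_+)^(n+2)` -/
lemma hasDerivAt_pos_pow (n : ℕ) (x : ℝ) :
    HasDerivAt (fun x : ℝ => (max x 0) ^ (n + 2)) ((n + 2) * (max x 0) ^ (n + 1)) x := by
  rcases lt_trichotomy x 0 with h | h | h
  · have h1 : (fun x : ℝ => (max x 0) ^ (n + 2)) =ᶠ[𝓝 x] fun _ => 0 := by
      filter_upwards [Iio_mem_nhds h] with y hy
      rw [max_eq_right (le_of_lt hy)]
      simp
    rw [max_eq_right h.le]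
    have h2 : HasDerivAt (fun _ : ℝ => (0:ℝ)) 0 x := hasDerivAt_const _ _
    simpa using h2.congr_of_eventuallyEq h1
  · subst h
    have h2 : HasDerivAt (fun x : ℝ => (max x 0) ^ (n + 2)) 0 0 := by
      rw [hasDerivAt_iff_isLittleO_nhds_zero]
      have h3 : (fun h : ℝ => (max (0 + h) 0) ^ (n + 2) - (max (0:ℝ) 0) ^ (n + 2) - h • (0:ℝ)) =O[𝓝 0]
          fun h : ℝ => h ^ 2 := by
        rw [Asymptotics.isBigO_iff]
        refine ⟨1, ?_⟩
        filter_upwards [Metric.ball_mem_nhds (0:ℝ) one_pos] with y hy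
        rw [Metric.mem_ball, dist_zero_right, Real.norm_eq_abs] at hy
        have h4 : (max (0 + y) 0) ^ (n + 2) - (max (0:ℝ) 0) ^ (n + 2) - y • (0:ℝ) =
            (max y 0) ^ (n + 2) := by simp
        rw [h4, one_mul, Real.norm_eq_abs, Real.norm_eq_abs, abs_pow, abs_pow]
        have h5 : |max y 0| ≤ |y| := by
          rw [abs_of_nonneg (le_max_right _ _)]
          exact max_le (le_abs_self y) (abs_nonneg y)
        calc |max y 0| ^ (n + 2) ≤ |y| ^ (n + 2) := by gcongr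
          _ ≤ |y| ^ 2 := pow_le_pow_of_le_one (abs_nonneg _) hy.le (by omega)
      refine h3.trans_isLittleO ?_
      simpa using (Asymptotics.isLittleO_pow_id (𝕜 := ℝ) (n := 2) (by norm_num))
    simpa using h2
  · have h1 : (fun x : ℝ => (max x 0) ^ (n + 2)) =ᶠ[𝓝 x] fun y => y ^ (n + 2) := by
      filter_upwards [Ioi_mem_nhds h] with y hy
      rw [max_eq_left (le_of_lt hy)]
    rw [max_eq_left h.le]
    have h2 := hasDerivAt_pow (n + 2) x
    refine (h2.congr_of_eventuallyEq h1).congr_deriv ?_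
    push_cast
    simp

/-- `k(s) = (1 - s)_+³` -/
noncomputable def k3 (s : ℝ) : ℝ := (max (1 - s) 0) ^ 3

/-- its derivative -/
noncomputable def k3' (s : ℝ) : ℝ := -(3 * (max (1 - s) 0) ^ 2)

/-- `K(s) = (1 - s)_+⁴ / 8` -/
noncomputable def K3 (s : ℝ) : ℝ := (max (1 - s) 0) ^ 4 / 8

lemma hasDerivAt_one_sub (s : ℝ) : HasDerivAt (fun s : ℝ => 1 - s) (-1) s := by
  simpa using (hasDerivAt_id s).const_sub 1

lemma hasDerivAt_k3 (s : ℝ) : HasDerivAt k3 (k3' s) s := by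
  have h := (hasDerivAt_pos_pow 1 (1 - s)).comp s (hasDerivAt_one_sub s)
  refine h.congr_deriv ?_
  unfold k3'
  push_cast
  ring

lemma hasDerivAt_K3 (s : ℝ) : HasDerivAt K3 (-(k3 s) / 2) s := by
  have h := ((hasDerivAt_pos_pow 2 (1 - s)).comp s (hasDerivAt_one_sub s)).div_const 8
  refine h.congr_deriv ?_
  unfold k3
  push_cast
  ring

lemma k3_zero {s : ℝ} (hs : 1 ≤ s) : k3 s = 0 := by
  unfold k3; rw [max_eq_right (by linarith)]; norm_num

lemma K3_zero {s : ℝ} (hs : 1 ≤ s) : K3 s = 0 := by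
  unfold K3; rw [max_eq_right (by linarith)]; norm_num

lemma kern3 : Kern k3 k3' K3 where
  pk := ⟨hasDerivAt_k3, by unfold k3'; fun_prop, fun s hs => k3_zero hs⟩
  pK := ⟨hasDerivAt_K3, by unfold k3; fun_prop, fun s hs => K3_zero hs⟩
  nonneg := fun s => by unfold k3; positivity

lemma max_le_one {s : ℝ} (hs : 0 ≤ s) : max (1 - s) 0 ≤ 1 := max_le (by linarith) zero_le_one

lemma kb3 : KB k3 k3' K3 32 where
  kern := kern3
  one := by norm_num
  kB := fun s hs => by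
    unfold k3
    have h1 := max_le_one hs
    have h0 : 0 ≤ max (1 - s) 0 := le_max_right _ _
    have : (max (1 - s) 0) ^ 3 ≤ 1 := pow_le_one₀ h0 h1
    linarith
  k'B := fun s hs => by
    unfold k3'
    have h1 := max_le_one hs
    have h0 : 0 ≤ max (1 - s) 0 := le_max_right _ _
    have : (max (1 - s) 0) ^ 2 ≤ 1 := pow_le_one₀ h0 h1
    rw [abs_neg, abs_of_nonneg (by positivity)]
    linarith
  KB := fun s hs => by
    unfold K3
    have h1 := max_le_one hs
    have h0 : 0 ≤ max (1 - s) 0 := le_max_right _ _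
    have : (max (1 - s) 0) ^ 4 ≤ 1 := pow_le_one₀ h0 h1
    linarith
  Kk := fun s hs => by
    unfold K3 k3
    have h1 := max_le_one hs
    have h0 : 0 ≤ max (1 - s) 0 := le_max_right _ _
    have h3 : 0 ≤ (max (1 - s) 0) ^ 3 := by positivity
    have h2 : (max (1 - s) 0) ^ 4 ≤ (max (1 - s) 0) ^ 3 := by
      calc (max (1 - s) 0) ^ 4 = (max (1 - s) 0) ^ 3 * max (1 - s) 0 := by ring
        _ ≤ (max (1 - s) 0) ^ 3 * 1 := by gcongr
        _ = _ := mul_one _
    linarith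
  Klow := fun s hs hs1 => by
    unfold K3
    have h1 : 3 / 4 ≤ max (1 - s) 0 := le_trans (by linarith) (le_max_left _ _)
    have h2 : (3 / 4 : ℝ) ^ 4 ≤ (max (1 - s) 0) ^ 4 := by gcongr
    norm_num at h2
    linarith

lemma k3_antitoneOn : AntitoneOn k3 (Ici 0) := by
  intro s _ t _ hst
  unfold k3
  have : max (1 - t) 0 ≤ max (1 - s) 0 := max_le_max (by linarith) le_rfl
  have h0 : 0 ≤ max (1 - t) 0 := le_max_right _ _
  gcongr

lemma k3_pos {s : ℝ} (hs : s < 1) : 0 < k3 s := by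
  unfold k3
  have : 0 < max (1 - s) 0 := lt_max_of_lt_left (by linarith)
  positivity

lemma k3_eq {s : ℝ} (hs : s ≤ 1) : k3 s = (1 - s) ^ 3 := by
  unfold k3; rw [max_eq_left (by linarith)]

end Vale.Agent.P214.ODEW
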