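import Vale.Agent.P214.ODEW.Kern

/-!
# P214, block ODEW: integrated error bounds of the curved frequency ODE, abstract layer

`Fld` = the real functions on the Fermi chart which occur in the curved ODE (relative to an exact
minimal reference graph); `BD` = their pointwise bounds; `KB` = a kernel pair with `K ≤ B k`.
The integrated bounds: `err_height`, `err_area`, `abs_bulk`.
-/

open Set Filter Topology MeasureTheory Metric

set_option linter.all false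

namespace Vale.Agent.P214.ODEW

open Vale.Agent.P214.ODE

/-- the functions on the Fermi chart: squared distance `r2`, tilt `e`, height `un`, `oo = |om|²`,
weight `vp`, radial energy `rr`, traces `trO, trZ, trX`, the quadratic terms `c1, c2, c3`,
curvature term `ta` -/
structure Fld (α : Type*) where
  r2 : α → ℝ
  e : α → ℝ
  un : α → ℝ
  oo : α → ℝ
  vp : α → ℝ
  rr : α → ℝ
  trO : α → ℝ
  trZ : α → ℝ
  trX : α → ℝ
  c1 : α → ℝ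
  c2 : α → ℝ
  c3 : α → ℝ
  ta : α → ℝ

variable {α : Type*} [MeasurableSpace α]

/-- pointwise bounds on `{r2 < t²}` at the scale `t` -/
structure BD (F : Fld α) (ν : Measure α) (m : ℕ) (κ c t : ℝ) : Prop where
  fin : IsFiniteMeasure ν
  mr2 : AEStronglyMeasurable F.r2 ν
  me : AEStronglyMeasurable F.e ν
  mun : AEStronglyMeasurable F.un ν
  moo : AEStronglyMeasurable F.oo ν
  mvp : AEStronglyMeasurable F.vp ν
  mrr : AEStronglyMeasurable F.rr ν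
  mtrO : AEStronglyMeasurable F.trO ν
  mtrZ : AEStronglyMeasurable F.trZ ν
  mtrX : AEStronglyMeasurable F.trX ν
  mc1 : AEStronglyMeasurable F.c1 ν
  mc2 : AEStronglyMeasurable F.c2 ν
  mc3 : AEStronglyMeasurable F.c3 ν
  mta : AEStronglyMeasurable F.ta ν
  κ0 : 0 ≤ κ
  c0 : 0 ≤ c
  κt : κ * t ≤ 1
  r2nn : ∀ y, 0 ≤ F.r2 y
  enn : ∀ᵐ y ∂ν, F.r2 y < t ^ 2 → 0 ≤ F.e y
  ele : ∀ᵐ y ∂ν, F.r2 y < t ^ 2 → F.e y ≤ m
  unn : ∀ᵐ y ∂ν, F.r2 y < t ^ 2 → 0 ≤ F.un y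
  unle : ∀ᵐ y ∂ν, F.r2 y < t ^ 2 → F.un y ≤ 1
  oo1 : ∀ᵐ y ∂ν, F.r2 y < t ^ 2 → F.un y ^ 2 ≤ F.oo y
  oo2 : ∀ᵐ y ∂ν, F.r2 y < t ^ 2 → F.oo y ≤ 2 * F.un y ^ 2
  vp1 : ∀ᵐ y ∂ν, F.r2 y < t ^ 2 → 1 / 2 ≤ F.vp y
  vp2 : ∀ᵐ y ∂ν, F.r2 y < t ^ 2 → F.vp y ≤ 1
  vp3 : ∀ᵐ y ∂ν, F.r2 y < t ^ 2 → 1 - F.vp y ≤ c * κ ^ 2 * t ^ 2
  rrnn : ∀ᵐ y ∂ν, F.r2 y < t ^ 2 → 0 ≤ F.rr y
  rrle : ∀ᵐ y ∂ν, F.r2 y < t ^ 2 → F.rr y ≤ c * F.r2 y
  p1 : ∀ᵐ y ∂ν, F.r2 y < t ^ 2 → |F.trO y - F.e y| ≤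
    c * (κ * F.un y * F.e y + κ ^ 2 * F.un y ^ 2)
  p2 : ∀ᵐ y ∂ν, F.r2 y < t ^ 2 → |F.trZ y - (m + F.ta y - F.e y)| ≤
    c * (κ * (t + F.un y) * F.e y + κ * F.un y * √(F.e y) + κ ^ 2 * F.un y ^ 2)
  p3 : ∀ᵐ y ∂ν, F.r2 y < t ^ 2 → |F.trX y - (m - F.e y)| ≤
    c * (κ * (t + F.un y) * F.e y + κ * F.un y * √(F.e y) + κ ^ 2 * F.un y ^ 2) +
    c * κ ^ 2 * t ^ 2
  p4 : ∀ᵐ y ∂ν, F.r2 y < t ^ 2 → |F.c1 y - (F.vp y)⁻¹ * F.rr y| ≤
    c * κ * F.un y * √(F.r2 y) * √(F.rr y) +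
    (if F.r2 y / t ^ 2 < 1 / 4 then c * κ ^ 2 * t ^ 4 * (F.e y + κ ^ 2 * F.un y ^ 2) else 0)
  p5 : ∀ᵐ y ∂ν, F.r2 y < t ^ 2 → |F.c2 y| ≤ c * κ * F.un y ^ 2 * √(F.r2 y)
  p6 : ∀ᵐ y ∂ν, F.r2 y < t ^ 2 → |F.c3 y| ≤ c * F.r2 y * (F.e y + κ ^ 2 * F.un y ^ 2)
  p8 : ∀ᵐ y ∂ν, F.r2 y < t ^ 2 → |F.ta y| ≤ c * κ ^ 2 * t ^ 2

/-- `t^j ∫ ψ(r2/t²) f dν` -/
noncomputable def kint (F : Fld α) (ν : Measure α) (j : ℤ) (ψ : ℝ → ℝ) (f : α → ℝ) (t : ℝ) : ℝ :=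
  t ^ j * ∫ y, ψ (F.r2 y / t ^ 2) * f y ∂ν

/-- the energy in the ball -/
noncomputable def Xe (F : Fld α) (ν : Measure α) (m : ℕ) (t : ℝ) : ℝ :=
  t ^ (2 - (m : ℤ)) * ∫ y in {y | F.r2 y < t ^ 2}, F.e y ∂ν

/-- the height in the ball -/
noncomputable def Xu (F : Fld α) (ν : Measure α) (m : ℕ) (t : ℝ) : ℝ :=
  t ^ (-(m : ℤ)) * ∫ y in {y | F.r2 y < t ^ 2}, F.un y ^ 2 ∂ν

/-- the height functional -/
noncomputable def Hf (F : Fld α) (ν : Measure α) (m : ℕ) (k : ℝ → ℝ) (t : ℝ) : ℝ :=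
  kint F ν (-(m : ℤ)) k (fun y => F.vp y * F.oo y) t

/-- the outer energy -/
noncomputable def Jf (F : Fld α) (ν : Measure α) (m : ℕ) (K : ℝ → ℝ) (t : ℝ) : ℝ :=
  kint F ν (2 - (m : ℤ)) K F.trO t

/-- the tilt energy -/
noncomputable def Gf (F : Fld α) (ν : Measure α) (m : ℕ) (K : ℝ → ℝ) (t : ℝ) : ℝ :=
  kint F ν (2 - (m : ℤ)) K F.e t

/-- the radial energy -/
noncomputable def Bf (F : Fld α) (ν : Measure α) (m : ℕ) (k : ℝ → ℝ) (t : ℝ) : ℝ :=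
  kint F ν (-(m : ℤ)) k (fun y => (F.vp y)⁻¹ * F.rr y) t

/-- the mass -/
noncomputable def Mf (F : Fld α) (ν : Measure α) (m : ℕ) (K : ℝ → ℝ) (t : ℝ) : ℝ :=
  kint F ν (-(m : ℤ)) K (fun _ => 1) t

section general

variable {F : Fld α} {ν : Measure α} {m : ℕ} {κ c B t : ℝ} {k k' K ψ : ℝ → ℝ} {f g : α → ℝ}

/-- integrability of kernel integrals of functions bounded on the ball -/
lemma BD.integrable (h : BD F ν m κ c t) (hψ : Continuous ψ) (hz : ∀ s, 1 ≤ s → ψ s = 0)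
    (hf : AEStronglyMeasurable f ν) {C : ℝ} (ht : 0 < t)
    (hb : ∀ᵐ y ∂ν, F.r2 y < t ^ 2 → |f y| ≤ C) :
    Integrable (fun y => ψ (F.r2 y / t ^ 2) * f y) ν := by
  have := h.fin
  exact integrable_kernel hψ hz h.mr2 h.r2nn hf hb ht le_rfl

/-- integrability on the ball -/
lemma BD.integrableOn (h : BD F ν m κ c t) (hf : AEStronglyMeasurable f ν) {C : ℝ}
    (hb : ∀ᵐ y ∂ν, F.r2 y < t ^ 2 → |f y| ≤ C) :
    Integrable (fun y => if F.r2 y < t ^ 2 then f y else 0) ν := by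
  have := h.fin
  obtain ⟨r, hr, hrr⟩ := h.mr2
  have hm : AEStronglyMeasurable (fun y => if F.r2 y < t ^ 2 then f y else 0) ν := by
    have h1 : AEStronglyMeasurable ({y | r y < t ^ 2}.indicator f) ν :=
      hf.indicator (hr.measurable measurableSet_Iio)
    refine h1.congr ?_
    filter_upwards [hrr] with y hy
    simp only [indicator, mem_setOf_eq, hy]
  refine Integrable.mono' (integrable_const |C|) hm ?_
  filter_upwards [hb] with y hy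
  by_cases h1 : F.r2 y < t ^ 2
  · simp only [h1, if_true]
    rw [Real.norm_eq_abs]
    exact (hy h1).trans (le_abs_self _)
  · simp only [h1, if_false, norm_zero]
    exact abs_nonneg _

lemma BD.setIntegral (h : BD F ν m κ c t) (f : α → ℝ) :
    ∫ y in {y | F.r2 y < t ^ 2}, f y ∂ν = ∫ y, (if F.r2 y < t ^ 2 then f y else 0) ∂ν := by
  obtain ⟨r, hr, hrr⟩ := h.mr2
  have h1 : NullMeasurableSet {y | F.r2 y < t ^ 2} ν := by
    refine ⟨{y | r y < t ^ 2}, hr.measurable measurableSet_Iio, ?_⟩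
    filter_upwards [hrr] with y hy
    show (F.r2 y < t ^ 2) = (r y < t ^ 2)
    rw [hy]
  rw [← integral_indicator₀ h1]
  rfl

/-- monotonicity of kernel integrals -/
lemma kint_le {j : ℤ} (ht : 0 < t) {ψ₁ ψ₂ : ℝ → ℝ}
    (i1 : Integrable (fun y => ψ₁ (F.r2 y / t ^ 2) * f y) ν)
    (i2 : Integrable (fun y => ψ₂ (F.r2 y / t ^ 2) * g y) ν)
    (hle : ∀ᵐ y ∂ν, ψ₁ (F.r2 y / t ^ 2) * f y ≤ ψ₂ (F.r2 y / t ^ 2) * g y) :
    kint F ν j ψ₁ f t ≤ kint F ν j ψ₂ g t := by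
  unfold kint
  have := integral_mono_ae i1 i2 hle
  have h0 : 0 ≤ t ^ j := by positivity
  exact mul_le_mul_of_nonneg_left this h0

lemma abs_kint_le {j : ℤ} (ht : 0 < t) {ψ₁ ψ₂ : ℝ → ℝ}
    (i2 : Integrable (fun y => ψ₂ (F.r2 y / t ^ 2) * g y) ν)
    (hle : ∀ᵐ y ∂ν, |ψ₁ (F.r2 y / t ^ 2) * f y| ≤ ψ₂ (F.r2 y / t ^ 2) * g y) :
    |kint F ν j ψ₁ f t| ≤ kint F ν j ψ₂ g t := by
  unfold kint
  have h0 : 0 ≤ t ^ j := by positivity
  rw [abs_mul, abs_of_nonneg h0]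
  refine mul_le_mul_of_nonneg_left ?_ h0
  rw [← Real.norm_eq_abs]
  exact norm_integral_le_of_norm_le i2 (by
    filter_upwards [hle] with y hy
    rwa [Real.norm_eq_abs])

lemma kint_nonneg {j : ℤ} (ht : 0 < t)
    (h : ∀ᵐ y ∂ν, 0 ≤ ψ (F.r2 y / t ^ 2) * f y) : 0 ≤ kint F ν j ψ f t := by
  unfold kint
  have h0 : 0 ≤ t ^ j := by positivity
  exact mul_nonneg h0 (integral_nonneg_of_ae h)

lemma kint_add {j : ℤ} {ψ₁ ψ₂ : ℝ → ℝ}
    (i1 : Integrable (fun y => ψ₁ (F.r2 y / t ^ 2) * f y) ν)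
    (i2 : Integrable (fun y => ψ₂ (F.r2 y / t ^ 2) * g y) ν) :
    t ^ j * ∫ y, (ψ₁ (F.r2 y / t ^ 2) * f y + ψ₂ (F.r2 y / t ^ 2) * g y) ∂ν =
      kint F ν j ψ₁ f t + kint F ν j ψ₂ g t := by
  unfold kint
  rw [integral_add i1 i2]
  ring

lemma kint_smul {j : ℤ} (a : ℝ) : kint F ν j ψ (fun y => a * f y) t = a * kint F ν j ψ f t := by
  unfold kint
  have : ∀ y, ψ (F.r2 y / t ^ 2) * (a * f y) = a * (ψ (F.r2 y / t ^ 2) * f y) := fun y => by ring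
  simp only [this, integral_const_mul]
  ring

/-- change of the power of `t` -/
lemma kint_pow {j : ℤ} (ht : 0 < t) : kint F ν (2 + j) ψ f t = t ^ 2 * kint F ν j ψ f t := by
  unfold kint
  rw [zpow_add₀ ht.ne']
  norm_cast
  ring

end general

section dom

variable {F : Fld α} {ν : Measure α} {m : ℕ} {κ c B t : ℝ} {k k' K ψ : ℝ → ℝ} {f g : α → ℝ}

lemma BD.intH (h : BD F ν m κ c t) (hk : KB k k' K B) (ht : 0 < t) :
    Integrable (fun y => k (F.r2 y / t ^ 2) * (F.vp y * F.oo y)) ν := by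
  refine h.integrable hk.kern.pk.continuous hk.kern.pk.zero (h.mvp.mul h.moo) (C := 2) ht ?_
  filter_upwards [h.vp1, h.vp2, h.oo1,
    h.oo2, h.unn, h.unle] with y h1 h2 h3 h4 h5 h6 hy
  have a1 := h1 hy; have a2 := h2 hy; have a3 := h3 hy; have a4 := h4 hy; have a5 := h5 hy
  have a6 := h6 hy
  have b1 : F.un y ^ 2 ≤ 1 := by nlinarith
  have b2 : 0 ≤ F.oo y := (sq_nonneg _).trans a3
  rw [abs_of_nonneg (by positivity)]
  nlinarith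

lemma BD.intG (h : BD F ν m κ c t) (hk : KB k k' K B) (ht : 0 < t) :
    Integrable (fun y => K (F.r2 y / t ^ 2) * F.e y) ν := by
  refine h.integrable hk.kern.pK.continuous hk.kern.pK.zero h.me (C := m) ht ?_
  filter_upwards [h.enn, h.ele] with y h1 h2 hy
  rw [abs_of_nonneg (h1 hy)]
  exact h2 hy

lemma BD.intX (h : BD F ν m κ c t) (ht : 0 < t) :
    Integrable (fun y => if F.r2 y < t ^ 2 then t ^ 2 * F.e y + F.un y ^ 2 else 0) ν := by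
  refine h.integrableOn ((h.me.const_mul _).add (h.mun.pow 2)) (C := t ^ 2 * m + 1) ?_
  filter_upwards [h.enn, h.ele, h.unn,
    h.unle] with y h1 h2 h3 h4 hy
  have a1 := h1 hy; have a2 := h2 hy; have a3 := h3 hy; have a4 := h4 hy
  rw [abs_of_nonneg (by positivity)]
  have : F.un y ^ 2 ≤ 1 := by nlinarith
  gcongr

/-- **Domination lemma.** -/
lemma BD.dom (h : BD F ν m κ c t) (hk : KB k k' K B) (ht : 0 < t) {W : α → ℝ}
    {a a' b : ℝ}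
    (hle : ∀ᵐ y ∂ν, |W y| ≤ a * (k (F.r2 y / t ^ 2) * (F.vp y * F.oo y)) +
      a' * (t ^ 2 * (K (F.r2 y / t ^ 2) * F.e y)) +
      b * (if F.r2 y < t ^ 2 then t ^ 2 * F.e y + F.un y ^ 2 else 0)) :
    |t ^ (-(m : ℤ)) * ∫ y, W y ∂ν| ≤ a * Hf F ν m k t + a' * Gf F ν m K t +
      b * (Xe F ν m t + Xu F ν m t) := by
  have i1 := (h.intH hk ht).const_mul a
  have i2 := ((h.intG hk ht).const_mul (t ^ 2)).const_mul a'
  have i3 := (h.intX ht).const_mul b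
  have h0 : 0 ≤ t ^ (-(m : ℤ)) := by positivity
  rw [abs_mul, abs_of_nonneg h0]
  have e1 : |∫ y, W y ∂ν| ≤ a * (∫ y, k (F.r2 y / t ^ 2) * (F.vp y * F.oo y) ∂ν) +
      a' * (t ^ 2 * ∫ y, K (F.r2 y / t ^ 2) * F.e y ∂ν) +
      b * ((t ^ 2 * ∫ y in {y | F.r2 y < t ^ 2}, F.e y ∂ν) +
        ∫ y in {y | F.r2 y < t ^ 2}, F.un y ^ 2 ∂ν) := by
    rw [← Real.norm_eq_abs]
    refine (norm_integral_le_of_norm_le ((i1.add i2).add i3) (by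
      filter_upwards [hle] with y hy
      rw [Real.norm_eq_abs]
      exact hy)).trans (le_of_eq ?_)
    rw [integral_add' (i1.add i2) i3, integral_add' i1 i2, integral_const_mul, integral_const_mul,
      integral_const_mul, integral_const_mul, h.setIntegral, h.setIntegral]
    congr 2
    have j1 : Integrable (fun y => if F.r2 y < t ^ 2 then F.e y else 0) ν := by
      refine h.integrableOn h.me (C := m) ?_
      filter_upwards [h.enn, h.ele] with y h1 h2 hy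
      rw [abs_of_nonneg (h1 hy)]
      exact h2 hy
    have j2 : Integrable (fun y => if F.r2 y < t ^ 2 then F.un y ^ 2 else 0) ν := by
      refine h.integrableOn (h.mun.pow 2) (C := 1) ?_
      filter_upwards [h.unn, h.unle] with y h1 h2 hy
      have a1 := h1 hy; have a2 := h2 hy
      show |F.un y ^ 2| ≤ 1
      rw [abs_of_nonneg (by positivity)]
      nlinarith
    rw [← integral_const_mul, ← integral_add (j1.const_mul _) j2]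
    refine integral_congr_ae (Eventually.of_forall fun y => ?_)
    by_cases h1 : F.r2 y < t ^ 2 <;> simp [h1]
  have e2 : t ^ (2 - (m : ℤ)) = t ^ 2 * t ^ (-(m : ℤ)) := by
    rw [show (2 - (m : ℤ)) = 2 + (-(m : ℤ)) by ring, zpow_add₀ ht.ne']
    norm_cast
  calc t ^ (-(m : ℤ)) * |∫ y, W y ∂ν| ≤ t ^ (-(m : ℤ)) *
        (a * (∫ y, k (F.r2 y / t ^ 2) * (F.vp y * F.oo y) ∂ν) +
      a' * (t ^ 2 * ∫ y, K (F.r2 y / t ^ 2) * F.e y ∂ν) +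
      b * ((t ^ 2 * ∫ y in {y | F.r2 y < t ^ 2}, F.e y ∂ν) +
        ∫ y in {y | F.r2 y < t ^ 2}, F.un y ^ 2 ∂ν)) := mul_le_mul_of_nonneg_left e1 h0
    _ = _ := by
      unfold Hf Gf Xe Xu kint
      rw [e2]
      ring

/-- pointwise estimate for the bulk error -/
lemma pt_err {m : ℕ} {κ c t e un : ℝ} (hκ : 0 ≤ κ) (hc : 0 ≤ c)
    (ht : 0 < t) (hκt : κ * t ≤ 1) (he : 0 ≤ e) (hem : e ≤ m) (hu : 0 ≤ un)
    (hunt : un ≤ t) :
    c * (κ * (t + un) * e + κ * un * √e + κ ^ 2 * un ^ 2) ≤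
        2 * c * e + κ * t * (c * (m + 3) / 2) := by
  have hm : (0 : ℝ) ≤ m := Nat.cast_nonneg m
  have hse : √e ≤ (1 + e) / 2 := by
    rw [Real.sqrt_le_left (by linarith)]
    nlinarith [sq_nonneg (1 - e)]
  have b1 : κ * (t + un) * e ≤ 2 * e := by
    have : κ * (t + un) ≤ 2 := by
      calc κ * (t + un) ≤ κ * (t + t) := by gcongr
        _ = 2 * (κ * t) := by ring
        _ ≤ 2 := by linarith
    exact mul_le_mul_of_nonneg_right this he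
  have b2 : κ * un * √e ≤ κ * t * ((1 + m) / 2) := by
    have : √e ≤ (1 + m) / 2 := by linarith
    gcongr
  have b3 : κ ^ 2 * un ^ 2 ≤ κ * t := by
    calc κ ^ 2 * un ^ 2 ≤ κ ^ 2 * t ^ 2 := by gcongr
      _ = (κ * t) * (κ * t) := by ring
      _ ≤ (κ * t) * 1 := by gcongr
      _ = κ * t := mul_one _
  calc _ ≤ c * (2 * e + κ * t * ((1 + m) / 2) + κ * t) := by gcongr
    _ = _ := by ring

lemma pt_trX {m : ℕ} {κ c t e un vp trX : ℝ} (hκ : 0 ≤ κ) (hc : 0 ≤ c)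
    (ht : 0 < t) (hκt : κ * t ≤ 1) (he : 0 ≤ e) (hem : e ≤ m) (hu : 0 ≤ un)
    (hunt : un ≤ t) (hv2 : vp ≤ 1) (hv3 : 1 - vp ≤ c * κ ^ 2 * t ^ 2)
    (p3 : |trX - (m - e)| ≤ c * (κ * (t + un) * e + κ * un * √e + κ ^ 2 * un ^ 2) +
      c * κ ^ 2 * t ^ 2) :
    |trX - m * vp| ≤ (1 + 2 * c) * e + κ * t * (c * (3 * m + 5) / 2) := by
  have hm : (0 : ℝ) ≤ m := Nat.cast_nonneg m
  have b0 : c * κ ^ 2 * t ^ 2 ≤ c * (κ * t) := by
    calc c * κ ^ 2 * t ^ 2 = c * ((κ * t) * (κ * t)) := by ring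
      _ ≤ c * ((κ * t) * 1) := by gcongr
      _ = _ := by ring
  have a1 : trX - m * vp = (trX - (m - e)) + (m * (1 - vp) - e) := by ring
  have a2 : |m * (1 - vp) - e| ≤ m * (c * (κ * t)) + e := by
    rw [abs_le]
    have b1 : 0 ≤ m * (1 - vp) := by
      have : 0 ≤ 1 - vp := by linarith
      positivity
    have b2 : m * (1 - vp) ≤ m * (c * (κ * t)) :=
      mul_le_mul_of_nonneg_left (hv3.trans b0) hm
    have b3 : 0 ≤ m * (c * (κ * t)) := by positivity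
    constructor <;> linarith
  have a3 := pt_err (m := m) hκ hc ht hκt he hem hu hunt
  rw [a1]
  calc |(trX - (m - e)) + (m * (1 - vp) - e)| ≤ |trX - (m - e)| + |m * (1 - vp) - e| :=
        abs_add_le _ _
    _ ≤ (2 * c * e + κ * t * (c * (m + 3) / 2) + c * (κ * t)) + (m * (c * (κ * t)) + e) :=
        add_le_add (p3.trans (add_le_add a3 b0)) a2
    _ = _ := by ring

lemma pt_height1 {m : ℕ} {κ c B t σ k e oo vp X : ℝ} (hκ : 0 ≤ κ) (hc : 0 ≤ c)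
    (ht : 0 < t) (hk : 0 ≤ k) (hkB : k ≤ B) (he : 0 ≤ e) (hoo : 0 ≤ oo)
    (un2 : oo ≤ 2 * (σ ^ 2 * t ^ 2)) (hv1 : 1 / 2 ≤ vp)
    (hX : |X| ≤ (1 + 2 * c) * e + κ * t * (c * (3 * m + 5) / 2)) :
    |k * (oo * X)| ≤ (c * (3 * m + 5) * (κ * t)) * (k * (vp * oo)) +
      (2 * B * (1 + 2 * c) * σ ^ 2) * (t ^ 2 * e) := by
  have hm : (0 : ℝ) ≤ m := Nat.cast_nonneg m
  have hB : 0 ≤ B := hk.trans hkB
  have ko : k * oo ≤ 2 * (k * (vp * oo)) := by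
    have : 0 ≤ k * oo := by positivity
    nlinarith
  rw [abs_mul, abs_mul, abs_of_nonneg hk, abs_of_nonneg hoo]
  calc k * (oo * |X|) ≤
        k * (oo * ((1 + 2 * c) * e + κ * t * (c * (3 * m + 5) / 2))) := by gcongr
    _ = (k * oo) * (κ * t * (c * (3 * m + 5) / 2)) + k * oo * ((1 + 2 * c) * e) := by ring
    _ ≤ (2 * (k * (vp * oo))) * (κ * t * (c * (3 * m + 5) / 2)) +
        B * (2 * (σ ^ 2 * t ^ 2)) * ((1 + 2 * c) * e) := by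
        gcongr
    _ = _ := by ring

lemma pt_height2 {κ c t k r2 un oo vp c2 : ℝ} (hκ : 0 ≤ κ) (hc : 0 ≤ c)
    (ht : 0 < t) (hk : 0 ≤ k) (hoo : 0 ≤ oo) (hr : r2 < t ^ 2)
    (ho1 : un ^ 2 ≤ oo) (hv1 : 1 / 2 ≤ vp) (p5 : |c2| ≤ c * κ * un ^ 2 * √r2) :
    |2 * (k * c2)| ≤ (4 * c * (κ * t)) * (k * (vp * oo)) := by
  have ko : k * oo ≤ 2 * (k * (vp * oo)) := by
    have : 0 ≤ k * oo := by positivity
    nlinarith
  have hsr : √r2 ≤ t := by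
    rw [Real.sqrt_le_left ht.le]; exact hr.le
  rw [abs_mul, abs_mul, abs_of_nonneg hk, abs_of_pos (show (0:ℝ) < 2 by norm_num)]
  calc 2 * (k * |c2|) ≤ 2 * (k * (c * κ * oo * t)) := by
        gcongr
        calc |c2| ≤ c * κ * un ^ 2 * √r2 := p5
          _ ≤ c * κ * oo * t := by gcongr
    _ = 2 * (c * (κ * t)) * (k * oo) := by ring
    _ ≤ 2 * (c * (κ * t)) * (2 * (k * (vp * oo))) := by gcongr
    _ = _ := by ring

lemma pt_height3 {κ c B t σ k' r2 e un oo c3 : ℝ} (hκ : 0 ≤ κ) (hc : 0 ≤ c)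
    (ht : 0 < t) (hκt : κ * t ≤ 1) (hk' : |k'| ≤ B) (hr0 : 0 ≤ r2) (hr : r2 < t ^ 2)
    (he : 0 ≤ e) (hoo : 0 ≤ oo) (un2 : oo ≤ 2 * (σ ^ 2 * t ^ 2))
    (p6 : |c3| ≤ c * r2 * (e + κ ^ 2 * un ^ 2)) :
    |2 * k' / t ^ 2 * (oo * c3)| ≤ (4 * B * c * σ ^ 2) * (t ^ 2 * e + un ^ 2) := by
  have hB : 0 ≤ B := (abs_nonneg _).trans hk'
  have hκt0 : 0 ≤ κ * t := by positivity
  rw [abs_mul, abs_mul, abs_of_nonneg hoo, abs_div, abs_mul,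
    abs_of_pos (show (0:ℝ) < 2 by norm_num), abs_of_pos (show 0 < t ^ 2 by positivity)]
  calc 2 * |k'| / t ^ 2 * (oo * |c3|) ≤ 2 * B / t ^ 2 *
        ((2 * (σ ^ 2 * t ^ 2)) * (c * t ^ 2 * (e + κ ^ 2 * un ^ 2))) := by
        gcongr
        calc |c3| ≤ c * r2 * (e + κ ^ 2 * un ^ 2) := p6
            _ ≤ c * t ^ 2 * (e + κ ^ 2 * un ^ 2) := by gcongr
    _ = (4 * B * c * σ ^ 2) * (t ^ 2 * e + (κ * t) ^ 2 * un ^ 2) := by
        field_simp; ring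
    _ ≤ (4 * B * c * σ ^ 2) * (t ^ 2 * e + 1 * un ^ 2) := by
        gcongr
        nlinarith
    _ = _ := by ring

/-- pointwise estimate for the height error -/
lemma pt_height {m : ℕ} {κ c B t σ k k' r2 e un oo vp trX c2 c3 : ℝ} (hκ : 0 ≤ κ) (hc : 0 ≤ c)
    (ht : 0 < t) (hκt : κ * t ≤ 1) (hσ : 0 ≤ σ) (hσ1 : σ ≤ 1) (hk : 0 ≤ k) (hkB : k ≤ B)
    (hk' : |k'| ≤ B) (hr0 : 0 ≤ r2) (hr : r2 < t ^ 2) (he : 0 ≤ e) (hem : e ≤ m) (hu : 0 ≤ un)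
    (hut : un ≤ σ * t) (ho1 : un ^ 2 ≤ oo) (ho2 : oo ≤ 2 * un ^ 2) (hv1 : 1 / 2 ≤ vp)
    (hv2 : vp ≤ 1) (hv3 : 1 - vp ≤ c * κ ^ 2 * t ^ 2)
    (p3 : |trX - (m - e)| ≤ c * (κ * (t + un) * e + κ * un * √e + κ ^ 2 * un ^ 2) +
      c * κ ^ 2 * t ^ 2)
    (p5 : |c2| ≤ c * κ * un ^ 2 * √r2) (p6 : |c3| ≤ c * r2 * (e + κ ^ 2 * un ^ 2)) :
    |k * (oo * (trX - m * vp)) + 2 * (k * c2) - 2 * k' / t ^ 2 * (oo * c3)| ≤
      (c * (3 * m + 9) * (κ * t)) * (k * (vp * oo)) +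
      (B * (2 + 8 * c) * σ ^ 2) * (t ^ 2 * e + un ^ 2) := by
  have hB : 0 ≤ B := hk.trans hkB
  have hunt : un ≤ t := hut.trans (by nlinarith)
  have hoo : 0 ≤ oo := (sq_nonneg _).trans ho1
  have un2 : oo ≤ 2 * (σ ^ 2 * t ^ 2) := by
    calc oo ≤ 2 * un ^ 2 := ho2
      _ ≤ 2 * (σ * t) ^ 2 := by gcongr
      _ = _ := by ring
  have hX := pt_trX hκ hc ht hκt he hem hu hunt hv2 hv3 p3
  have t1 := pt_height1 hκ hc ht hk hkB he hoo un2 hv1 hX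
  have t2 := pt_height2 hκ hc ht hk hoo hr ho1 hv1 p5
  have t3 := pt_height3 hκ hc ht hκt hk' hr0 hr he hoo un2 p6
  have h5 : 0 ≤ (2 * B * (1 + 2 * c) * σ ^ 2) * un ^ 2 := by positivity
  have e1 := abs_sub (k * (oo * (trX - m * vp)) + 2 * (k * c2)) (2 * k' / t ^ 2 * (oo * c3))
  have e2 := abs_add_le (k * (oo * (trX - m * vp))) (2 * (k * c2))
  have e3 : (c * (3 * m + 9) * (κ * t)) * (k * (vp * oo)) +
      (B * (2 + 8 * c) * σ ^ 2) * (t ^ 2 * e + un ^ 2) =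
      ((c * (3 * m + 5) * (κ * t)) * (k * (vp * oo)) +
      (2 * B * (1 + 2 * c) * σ ^ 2) * (t ^ 2 * e)) + (4 * c * (κ * t)) * (k * (vp * oo)) +
      (4 * B * c * σ ^ 2) * (t ^ 2 * e + un ^ 2) + (2 * B * (1 + 2 * c) * σ ^ 2) * un ^ 2 := by
    ring
  rw [e3]
  linarith

/-- pointwise estimate for the bulk error of the mass -/
lemma pt_area1 {κ c B t K k e un oo vp X : ℝ} (hκ : 0 ≤ κ) (hc : 0 ≤ c)
    (ht : 0 < t) (hκt : κ * t ≤ 1) (hK : 0 ≤ K) (hk : 0 ≤ k) (hB : 0 ≤ B) (hKk : K ≤ B * k)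
    (he : 0 ≤ e) (hu : 0 ≤ un)
    (hunt : un ≤ t) (ho1 : un ^ 2 ≤ oo) (hv1 : 1 / 2 ≤ vp)
    (hX : |X| ≤ c * (κ * (t + un) * e + κ * un * √e + κ ^ 2 * un ^ 2)) :
    |2 * t ^ 2 * (K * X)| ≤ (6 * B * c * (κ * t)) * (k * (vp * oo)) +
      (5 * c * (κ * t)) * (t ^ 2 * (K * e)) := by
  have hse := Real.sq_sqrt he
  have hse0 := Real.sqrt_nonneg e
  have hoo : 0 ≤ oo := (sq_nonneg _).trans ho1
  have Ku : K * un ^ 2 ≤ 2 * B * (k * (vp * oo)) := by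
    have h1 : K * un ^ 2 ≤ (B * k) * oo := by gcongr
    have h2 : 0 ≤ B * (k * oo) := by positivity
    nlinarith
  have hx : t ^ 2 * |X| ≤ c * (2 * (κ * t) * (t ^ 2 * e) + (κ * t) * (un ^ 2 + t ^ 2 * e) / 2 +
      (κ * t) * un ^ 2) := by
    have b1 : t ^ 2 * (κ * (t + un) * e) ≤ 2 * (κ * t) * (t ^ 2 * e) := by
      calc t ^ 2 * (κ * (t + un) * e) ≤ t ^ 2 * (κ * (t + t) * e) := by gcongr
        _ = _ := by ring
    have b2 : t ^ 2 * (κ * un * √e) ≤ (κ * t) * (un ^ 2 + t ^ 2 * e) / 2 := by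
      have : un * (t * √e) ≤ (un ^ 2 + t ^ 2 * e) / 2 := by
        have h1 : (t * √e) ^ 2 = t ^ 2 * e := by rw [mul_pow, hse]
        nlinarith [sq_nonneg (un - t * √e)]
      calc t ^ 2 * (κ * un * √e) = (κ * t) * (un * (t * √e)) := by ring
        _ ≤ (κ * t) * ((un ^ 2 + t ^ 2 * e) / 2) := by gcongr
        _ = _ := by ring
    have b3 : t ^ 2 * (κ ^ 2 * un ^ 2) ≤ (κ * t) * un ^ 2 := by
      calc t ^ 2 * (κ ^ 2 * un ^ 2) = (κ * t) * (κ * t) * un ^ 2 := by ring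
        _ ≤ (κ * t) * 1 * un ^ 2 := by gcongr
        _ = _ := by ring
    calc t ^ 2 * |X| ≤ t ^ 2 * (c * (κ * (t + un) * e + κ * un * √e + κ ^ 2 * un ^ 2)) := by
          gcongr
      _ = c * (t ^ 2 * (κ * (t + un) * e) + t ^ 2 * (κ * un * √e) +
          t ^ 2 * (κ ^ 2 * un ^ 2)) := by ring
      _ ≤ _ := by gcongr
  rw [abs_mul, abs_mul, abs_mul, abs_of_pos (show (0:ℝ) < 2 by norm_num), abs_of_nonneg hK,
    abs_of_nonneg (show 0 ≤ t ^ 2 by positivity)]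
  calc 2 * t ^ 2 * (K * |X|) = 2 * K * (t ^ 2 * |X|) := by ring
    _ ≤ 2 * K * (c * (2 * (κ * t) * (t ^ 2 * e) + (κ * t) * (un ^ 2 + t ^ 2 * e) / 2 +
      (κ * t) * un ^ 2)) := by gcongr
    _ = (3 * c * (κ * t)) * (K * un ^ 2) + (5 * c * (κ * t)) * (t ^ 2 * (K * e)) := by ring
    _ ≤ (3 * c * (κ * t)) * (2 * B * (k * (vp * oo))) +
        (5 * c * (κ * t)) * (t ^ 2 * (K * e)) := by gcongr
    _ = _ := by ring

/-- the extra term of the radial part, for `s < 1/4` -/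
lemma pt_rad {κ c B t K k e un oo vp : ℝ} (hκ : 0 ≤ κ) (hc : 0 ≤ c) (ht : 0 < t)
    (hκt : κ * t ≤ 1) (hk : 0 ≤ k) (hkB : k ≤ B) (hB1 : 1 ≤ B) (hKl : 1 ≤ B * K)
    (he : 0 ≤ e) (ho1 : un ^ 2 ≤ oo) (hv1 : 1 / 2 ≤ vp) :
    k * (c * κ ^ 2 * t ^ 4 * (e + κ ^ 2 * un ^ 2)) ≤
      (2 * c * B ^ 2 * (κ * t) ^ 2) * (k * (vp * oo)) +
      (c * B ^ 2 * (κ * t) ^ 2) * (t ^ 2 * (K * e)) := by
  have hoo : 0 ≤ oo := (sq_nonneg _).trans ho1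
  have hB0 : 0 ≤ B := by linarith
  have hx0 : 0 ≤ κ * t := by positivity
  have h1 : k * e ≤ B ^ 2 * (K * e) := by
    calc k * e ≤ B * e := mul_le_mul_of_nonneg_right hkB he
      _ = B * 1 * e := by ring
      _ ≤ B * (B * K) * e := by gcongr
      _ = _ := by ring
  have h2 : k * un ^ 2 ≤ 2 * (k * (vp * oo)) := by
    have h3 : k * un ^ 2 ≤ k * oo := by gcongr
    have h4 : 0 ≤ k * oo := by positivity
    nlinarith
  have h5 : (κ * t) ^ 4 ≤ (κ * t) ^ 2 * B ^ 2 := by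
    have h6 : (κ * t) ^ 2 ≤ 1 := pow_le_one₀ hx0 hκt
    have h7 : 1 ≤ B ^ 2 := one_le_pow₀ hB1
    calc (κ * t) ^ 4 = (κ * t) ^ 2 * (κ * t) ^ 2 := by ring
      _ ≤ (κ * t) ^ 2 * B ^ 2 := by gcongr; linarith
  have h8 : 0 ≤ k * un ^ 2 := by positivity
  calc k * (c * κ ^ 2 * t ^ 4 * (e + κ ^ 2 * un ^ 2)) =
        c * (κ * t) ^ 2 * t ^ 2 * (k * e) + c * (κ * t) ^ 4 * (k * un ^ 2) := by ring
    _ ≤ c * (κ * t) ^ 2 * t ^ 2 * (B ^ 2 * (K * e)) +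
        c * ((κ * t) ^ 2 * B ^ 2) * (2 * (k * (vp * oo))) := by
        gcongr
    _ = _ := by ring

end dom

end Vale.Agent.P214.ODEW
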