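import Vale.Agent.P214.FM.Real
import Vale.Agent.P214.ODET.Pw

/-!
# P214, block ODEW: pointwise bounds of `ODET/Pw` in the names of `FM`
-/

open Set Filter Topology MeasureTheory Metric
open scoped RealInnerProductSpace ContDiff

set_option linter.all false

namespace Vale.Agent.P214.ODEW

open FV FM

variable {E : Type*} [NormedAddCommGroup E] [InnerProductSpace ℝ E] [FiniteDimensional ℝ E]
  [MeasurableSpace E] [BorelSpace E]
variable {T S : Submodule ℝ E} {w : E → E} {ε κ h₁ : ℝ} {z Y : E}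

lemma XX_ft (T : Submodule ℝ E) (w : E → E) (z Y : E) : XX T w z Y = ODET.ft T w z Y := rfl

lemma cR_cRm (T : Submodule ℝ E) (w : E → E) (z Y : E) : cR T w z Y = ODET.cRm T w z Y := rfl

lemma om_omF (T : Submodule ℝ E) (w : E → E) (Y : E) : om T w Y = ODEF.omF T w Y := rfl

lemma vp_vpm (T : Submodule ℝ E) (w : E → E) (z Y : E) : vp T w z Y = ODET.vpm T w z Y := rfl

lemma rh_rhF (T : Submodule ℝ E) (w : E → E) (h₁ : ℝ) (z Y : E) :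
    rh T w h₁ z Y = ODET.rhF T w h₁ z Y := rfl

section

variable (H : Adm T w ε κ h₁)
include H

lemma gm_gmF (z Y : E) : gm T w z Y = ODET.gmF T w z Y := by
  unfold gm sg
  rw [XX_ft, ODET.PS_ft H]
  have h1 : ODET.gmF T w z Y + fderiv ℝ w Y (ODET.gmF T w z Y) = D0 w Y (ODET.gmF T w z Y) := by
    rw [D0_apply]
    have : adj (fderiv ℝ w Y) (ODET.gmF T w z Y) = 0 := by
      rw [← ODET.star_gmF H, H.ref.adj_fderiv_star]
    rw [this, sub_zero]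
  rw [h1, J0_D0]

lemma be_beT (z : E) (t : ℝ) : be T w z t = ODET.beT T w z t := by
  funext Y
  unfold be ODET.beT ODET.beF
  rw [gm_gmF H]
  rfl

lemma ze_zeF (z : E) (t : ℝ) : ze T w z t = ODEF.zeF T w (ODET.beT T w z t) := by
  funext Y
  unfold ze ODEF.zeF
  rw [be_beT H]

lemma xg_zeF (z : E) : xg T w z = ODEF.zeF T w (ODET.gmF T w z) := by
  funext Y
  unfold xg ODEF.zeF
  rw [gm_gmF H]

lemma norm_rh_le (z Y : E) : ‖rh T w h₁ z Y‖ ≤ 3 / 2 * ‖XX T w z Y‖ :=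
  ODET.norm_rhF_le H z Y

lemma one_sub_vp_le {t : ℝ} (hAt : ‖fderiv ℝ w Y‖ ≤ κ * t) (z : E) :
    1 - vp T w z Y ≤ (κ * t) ^ 2 :=
  (ODET.vpm_bounds H hAt z).2.2

lemma norm_sq_om (Y : E) : ‖co T Y‖ ^ 2 ≤ ‖om T w Y‖ ^ 2 ∧ ‖om T w Y‖ ^ 2 ≤ 2 * ‖co T Y‖ ^ 2 :=
  ODEF.norm_sq_omF H Y

/-- (P4), two-sided -/
theorem abs_rad_sub_le (hY : ‖co T Y‖ < h₁) {t : ℝ} (ht : 0 < t)
    (hAt : ‖fderiv ℝ w Y‖ ≤ κ * t) (hS : Module.finrank ℝ S = Module.finrank ℝ T) :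
    |⟪co S (rh T w h₁ z Y), co S (ze T w z t Y)⟫
        - (vp T w z Y)⁻¹ * ‖co S (rh T w h₁ z Y)‖ ^ 2| ≤
      4 * (κ * ‖co T Y‖) * ‖XX T w z Y‖ * ‖co S (rh T w h₁ z Y)‖ +
      (if ‖XX T w z Y‖ ^ 2 / t ^ 2 < 1 / 4 then 8 * (κ * t) ^ 2 * ‖XX T w z Y‖ ^ 2 *
        (FM.eS T w Y S.starProjection + (κ * ‖co T Y‖) ^ 2) else 0) := by
  have h := ODET.abs_inner_co_rhF_ze_le H (z := z) hY ht hAt hS
  rw [ze_zeF H]
  split_ifs with hc
  · exact h.1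
  · rw [add_zero]
    refine h.2 ?_
    by_contra hlt
    refine hc ?_
    have h1 : ‖XX T w z Y‖ < t / 2 := not_le.1 hlt
    rw [div_lt_iff₀ (by positivity)]
    calc ‖XX T w z Y‖ ^ 2 < (t / 2) ^ 2 := by gcongr
      _ = _ := by ring

/-- (P5) -/
theorem abs_inner_om_le (hY : ‖co T Y‖ < h₁) (z : E) (S : Submodule ℝ E) :
    |⟪om T w Y, S.starProjection (xg T w z Y - rh T w h₁ z Y)⟫|
      ≤ 5 * κ * ‖co T Y‖ ^ 2 * ‖XX T w z Y‖ := by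
  rw [xg_zeF H]
  exact ODET.abs_inner_omF_le H hY z S

/-- (P6) -/
theorem abs_inner_co_rh_xg_le (hY : ‖co T Y‖ < h₁) (z : E)
    (hS : Module.finrank ℝ S = Module.finrank ℝ T) :
    |⟪co S (rh T w h₁ z Y), co S (xg T w z Y)⟫|
      ≤ 6 * ‖XX T w z Y‖ ^ 2 * (FM.eS T w Y S.starProjection + (κ * ‖co T Y‖) ^ 2) := by
  rw [xg_zeF H]
  exact ODET.abs_inner_co_rhF_xg_le H hY z hS

end

end Vale.Agent.P214.ODEW
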