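import Vale.Agent.P214.ODEW.Err
import Vale.Agent.P214.ODEW.Bridge

/-!
# P214, block ODEW: the abstract layer applies to Fermi coordinates

`fld` : the functions of the abstract layer at the scale `t`; `CylF.bd` : their pointwise bounds, for
`κ t ≤ eps0`, a slab of height `h ≤ 1`, and a reference with small slope at the scale `t` (`Slp`).
-/

open Set Filter Topology MeasureTheory Metric
open scoped RealInnerProductSpace ContDiff

set_option linter.all false

namespace Vale.Agent.P214.ODEW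

open FV FM ODE

variable {E : Type*} [NormedAddCommGroup E] [InnerProductSpace ℝ E] [FiniteDimensional ℝ E]
  [MeasurableSpace E] [BorelSpace E]

/-- the slope of the reference at the scale `t` is at most `κ t` on the ball of radius `t`, and at
most `κ |bx|` outside the ball of radius `t/4` -/
structure Slp (T : Submodule ℝ E) (w : E → E) (z : E) (κ t : ℝ) : Prop where
  le : ∀ Y, ‖bx T z Y‖ ≤ t → ‖fderiv ℝ w Y‖ ≤ κ * t
  flat : Flat T w z κ (t / 4)

/-- small slope at the centre -/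
lemma Slp.of {T : Submodule ℝ E} {w : E → E} {ε κ : ℝ} (hw : Ref T w ε κ) {z : E} {t : ℝ}
    (hz : ‖fderiv ℝ w z‖ ≤ κ * (t / 4)) : Slp T w z (2 * κ) t := by
  have hκ := hw.knn
  refine ⟨fun Y hY => ?_, hw.flat_of hz⟩
  have h1 : ‖fderiv ℝ w Y - fderiv ℝ w z‖ ≤ κ * ‖bx T z Y‖ := by
    rw [← hw.fderiv_base Y, ← hw.fderiv_base z, bx_eq]
    exact (convex_univ (𝕜 := ℝ) (E := E)).norm_image_sub_le_of_norm_hasFDerivWithin_le
      (f := fderiv ℝ w) (f' := D2 w) (C := κ)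
      (fun z _ => (hw.diff1 z).hasFDerivAt.hasFDerivWithinAt)
      (fun z _ => hw.norm_D2_le z) (mem_univ _) (mem_univ _)
  have ht : 0 ≤ t := (norm_nonneg _).trans hY
  calc ‖fderiv ℝ w Y‖ = ‖(fderiv ℝ w Y - fderiv ℝ w z) + fderiv ℝ w z‖ := by congr 1; abel
    _ ≤ κ * ‖bx T z Y‖ + κ * (t / 4) := (norm_add_le _ _).trans (add_le_add h1 hz)
    _ ≤ κ * t + κ * t := by gcongr; linarith
    _ = _ := by ring

/-- the functions of the abstract layer in Fermi coordinates, at the scale `t` -/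
noncomputable def fld (m : ℕ) (T : Submodule ℝ E) (w : E → E) (h₁ : ℝ) (z : E) (t : ℝ)
    (P : E → E →L[ℝ] E) : Fld E where
  r2 := aX T w z
  e := eP T w P
  un := fun Y => ‖co T Y‖
  oo := fun Y => ‖om T w Y‖ ^ 2
  vp := vp T w z
  rr := fun Y => ‖rh T w h₁ z Y - P Y (rh T w h₁ z Y)‖ ^ 2
  trO := trJ T w h₁ P (om T w)
  trZ := trJ T w h₁ P (ze T w z t)
  trX := trJ T w h₁ P (xg T w z)
  c1 := radF T w h₁ z t P
  c2 := fun Y => ⟪om T w Y, P Y (xg T w z Y - rh T w h₁ z Y)⟫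
  c3 := fun Y => ⟪rh T w h₁ z Y - P Y (rh T w h₁ z Y), xg T w z Y - P Y (xg T w z Y)⟫
  ta := tau m T w z t

/-- the constant of the pointwise bounds -/
noncomputable def cB (m N : ℕ) : ℝ := 70 + 4 * N + 3 * m + 32 * cT

variable {m : ℕ} {T : Submodule ℝ E} {w : E → E} {ε κ h₁ : ℝ} {G : Set E} {h : ℝ}
  {ν : Measure E} {P : E → E →L[ℝ] E} {z : E} {k k' K : ℝ → ℝ} {t R : ℝ}

/-- **The pointwise bounds.** -/
theorem CylF.bd (H : Adm T w ε κ h₁) (hC : CylF m T w h₁ G h ν P) (hmin : MinimalOver T w G)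
    (hh : h ≤ 1) (ht : 0 < t) (hκR : κ * t ≤ eps0) (hs : Slp T w z κ t) (hG : BallIn T G z t) :
    BD (fld m T w h₁ z t P) ν m κ (cB m (Module.finrank ℝ E)) t := by
  have hR : 0 ≤ t := ht.le
  have hκ := H.ref.knn
  have hrh := (H.contDiff_rh z).continuous
  have hze := H.ref.contDiff_ze H.eps_le z ht
  have hcT := cT_nonneg
  have hxg := H.ref.contDiff_xg z
  have hom := H.ref.contDiff_om
  have one_le : (1 : WithTop ℕ∞) ≤ ∞ := WithTop.coe_le_coe.2 le_top
  have gr := hC.gd_perp H hR hG hrh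
  have gz := hC.gd_perp H hR hG hze.continuous
  have gx := hC.gd_perp H hR hG hxg.continuous
  have hN : (0 : ℝ) ≤ (Module.finrank ℝ E : ℝ) := Nat.cast_nonneg _
  have hm : (0 : ℝ) ≤ (m : ℝ) := Nat.cast_nonneg _
  have hc0 : 0 ≤ cB m (Module.finrank ℝ E) := by unfold cB; positivity
  have hdim := hC.dimT
  -- the main facts at one point
  have key : ∀ᵐ Y ∂ν, aX T w z Y < t ^ 2 → ∃ S : Submodule ℝ E,
      Module.finrank ℝ S = Module.finrank ℝ T ∧ Module.finrank ℝ S = m ∧ P Y = S.starProjection ∧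
      ‖co T Y‖ < h₁ ∧ T.starProjection Y ∈ G ∧ ‖XX T w z Y‖ ≤ t ∧ ‖co T Y‖ ≤ 1 := by
    filter_upwards [hC.proj, hC.slab_lt H.ref hR hG] with Y h1 h2 h3
    obtain ⟨S, hS, hPS⟩ := h1
    refine ⟨S, hS.trans hdim.symm, hS, hPS, (h2 h3).2, hC.mem_of_lt H.ref hR hG h3, ?_,
      (h2 h3).1.trans hh⟩
    unfold aX at h3
    exact (lt_of_pow_lt_pow_left₀ 2 hR h3).le
  have hsq : ∀ Y, √(aX T w z Y) = ‖XX T w z Y‖ := fun Y => by
    unfold aX; exact Real.sqrt_sq (norm_nonneg _)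
  have hxt : ∀ Y, aX T w z Y < t ^ 2 → ‖XX T w z Y‖ ≤ t := fun Y h3 => by
    unfold aX at h3
    exact (lt_of_pow_lt_pow_left₀ 2 hR h3).le
  refine
    { fin := hC.fin
      mr2 := (H.ref.continuous_aX z).aestronglyMeasurable
      me := (hC.gd_eP H hR hG).meas
      mun := (co T).continuous.norm.aestronglyMeasurable
      moo := (hom.continuous.norm.pow 2).aestronglyMeasurable
      mvp := (hC.gd_vp H (a := aX T w z) (R := t)).meas
      mrr := (gr.norm.pow 2).meas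
      mtrO := (hC.gd_trJ H hR hG (hom.of_le one_le)).meas
      mtrZ := (hC.gd_trJ H hR hG (hze.of_le one_le)).meas
      mtrX := (hC.gd_trJ H hR hG (hxg.of_le one_le)).meas
      mc1 := (gr.inner gz).meas
      mc2 := (hC.gd_innerP H hR hG hom.continuous (hxg.continuous.sub hrh)).meas
      mc3 := (gr.inner gx).meas
      mta := (H.ref.continuous_tau H.eps_le z ht).aestronglyMeasurable
      κ0 := hκ
      c0 := hc0
      κt := hκR.trans (eps0_le.trans (by norm_num))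
      r2nn := fun Y => aX_nonneg Y
      enn := ?_
      ele := ?_
      unn := Eventually.of_forall fun Y _ => norm_nonneg _
      unle := ?_
      oo1 := Eventually.of_forall fun Y _ => (norm_sq_om H Y).1
      oo2 := Eventually.of_forall fun Y _ => (norm_sq_om H Y).2
      vp1 := Eventually.of_forall fun Y _ => H.ref.half_le_vp H.eps_le z Y
      vp2 := Eventually.of_forall fun Y _ => Ref.vp_le_one z Y
      vp3 := Eventually.of_forall fun Y hY => ?_
      rrnn := Eventually.of_forall fun Y _ => sq_nonneg _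
      rrle := ?_
      p1 := ?_
      p2 := ?_
      p3 := ?_
      p4 := ?_
      p5 := ?_
      p6 := ?_
      p8 := ?_ }
  · -- enn
    filter_upwards [hC.proj] with Y h1 _
    obtain ⟨S, hS, hPS⟩ := h1
    show 0 ≤ eS T w Y (P Y)
    rw [hPS]; exact tilt_nonneg S (planeOf T w Y)
  · -- ele
    filter_upwards [hC.proj] with Y h1 _
    obtain ⟨S, hS, hPS⟩ := h1
    show eS T w Y (P Y) ≤ m
    rw [hPS, ← hS]; exact tilt_le S (planeOf T w Y)
  · -- unle
    filter_upwards [key] with Y h1 h2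
    obtain ⟨S, -, -, -, -, -, -, h3⟩ := h1 h2
    exact h3
  · -- vp3
    have hY' : aX T w z Y < t ^ 2 := hY
    show 1 - vp T w z Y ≤ cB m (Module.finrank ℝ E) * κ ^ 2 * t ^ 2
    have h1 := one_sub_vp_le H (hs.le Y (hxt Y hY')) z
    have h2 : 1 ≤ cB m (Module.finrank ℝ E) := by unfold cB; linarith
    have h3 : 0 ≤ κ ^ 2 * t ^ 2 := by positivity
    calc 1 - vp T w z Y ≤ 1 * (κ ^ 2 * t ^ 2) := by linarith [mul_pow κ t 2]
      _ ≤ cB m (Module.finrank ℝ E) * (κ ^ 2 * t ^ 2) := by gcongr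
      _ = _ := by ring
  · -- rrle
    filter_upwards [hC.proj] with Y h1 _
    obtain ⟨S, hS, hPS⟩ := h1
    show ‖rh T w h₁ z Y - P Y (rh T w h₁ z Y)‖ ^ 2 ≤ cB m (Module.finrank ℝ E) * aX T w z Y
    have h2 : ‖rh T w h₁ z Y - P Y (rh T w h₁ z Y)‖ ≤ 3 / 2 * ‖XX T w z Y‖ := by
      rw [hPS]
      exact (norm_co_le S _).trans (norm_rh_le H z Y)
    have h3 : ‖rh T w h₁ z Y - P Y (rh T w h₁ z Y)‖ ^ 2 ≤ (3 / 2 * ‖XX T w z Y‖) ^ 2 := by gcongr
    have h4 : (9 / 4 : ℝ) ≤ cB m (Module.finrank ℝ E) := by unfold cB; linarith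
    have h5 := aX_nonneg (T := T) (w := w) (z := z) Y
    calc _ ≤ (3 / 2 * ‖XX T w z Y‖) ^ 2 := h3
      _ = 9 / 4 * aX T w z Y := by unfold aX; ring
      _ ≤ _ := by gcongr
  · -- p1
    filter_upwards [key] with Y h1 h2
    obtain ⟨S, hST, hS, hPS, hY, hYG, hr, hu1⟩ := h1 h2
    show |trJ T w h₁ P (om T w) Y - eS T w Y (P Y)| ≤ cB m (Module.finrank ℝ E) *
      (κ * ‖co T Y‖ * eS T w Y (P Y) + κ ^ 2 * ‖co T Y‖ ^ 2)
    unfold trJ
    rw [hPS]
    have h3 := ODEF.bulk_om H hY (hmin Y hYG) hST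
    refine h3.trans ?_
    have h4 : 0 ≤ eS T w Y S.starProjection := tilt_nonneg S (planeOf T w Y)
    have h5 : 0 ≤ κ * ‖co T Y‖ * eS T w Y S.starProjection := by positivity
    have h6 : 0 ≤ κ ^ 2 * ‖co T Y‖ ^ 2 := by positivity
    have h7 : (8 : ℝ) ≤ cB m (Module.finrank ℝ E) := by unfold cB; linarith
    have h8 : 2 * (Module.finrank ℝ E : ℝ) ≤ cB m (Module.finrank ℝ E) := by unfold cB; linarith
    calc _ = 8 * (κ * ‖co T Y‖ * eS T w Y S.starProjection) +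
          2 * (Module.finrank ℝ E : ℝ) * (κ ^ 2 * ‖co T Y‖ ^ 2) := by ring
      _ ≤ cB m (Module.finrank ℝ E) * (κ * ‖co T Y‖ * eS T w Y S.starProjection) +
          cB m (Module.finrank ℝ E) * (κ ^ 2 * ‖co T Y‖ ^ 2) := by gcongr
      _ = _ := by ring
  · -- p2
    filter_upwards [key] with Y h1 h2
    obtain ⟨S, hST, hS, hPS, hY, hYG, hr, hu1⟩ := h1 h2
    show |trJ T w h₁ P (ze T w z t) Y - (m + tau m T w z t Y - eS T w Y (P Y))| ≤
      cB m (Module.finrank ℝ E) * (κ * (t + ‖co T Y‖) * eS T w Y (P Y) +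
        κ * ‖co T Y‖ * √(eS T w Y (P Y)) + κ ^ 2 * ‖co T Y‖ ^ 2)
    unfold trJ
    rw [hPS]
    have h3 := (ODET.pw_ze H (z := z) hY hC.isOpen hmin hYG hST ht hκR hr (hs.le Y hr)
      (hs.flat Y)).1
    have h4 : 0 ≤ eS T w Y S.starProjection := tilt_nonneg S (planeOf T w Y)
    have h5 : ((m : ℝ) + tau m T w z t Y - eS T w Y S.starProjection) =
        ODEF.divg w Y (ODET.beT T w z t Y) (fderiv ℝ (ODET.beT T w z t) Y) -
          eS T w Y S.starProjection := by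
      unfold tau; rw [be_beT H]; ring
    rw [h5, ze_zeF H]
    refine h3.trans ?_
    have h6 : (60 + 3 * (Module.finrank ℝ E : ℝ)) ≤ cB m (Module.finrank ℝ E) := by
      unfold cB; linarith
    have h7 : (κ * ‖co T Y‖) ^ 2 = κ ^ 2 * ‖co T Y‖ ^ 2 := by ring
    rw [h7]
    gcongr
  · -- p3
    filter_upwards [key] with Y h1 h2
    obtain ⟨S, hST, hS, hPS, hY, hYG, hr, hu1⟩ := h1 h2
    show |trJ T w h₁ P (xg T w z) Y - (m - eS T w Y (P Y))| ≤
      cB m (Module.finrank ℝ E) * (κ * (t + ‖co T Y‖) * eS T w Y (P Y) +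
        κ * ‖co T Y‖ * √(eS T w Y (P Y)) + κ ^ 2 * ‖co T Y‖ ^ 2) +
        cB m (Module.finrank ℝ E) * κ ^ 2 * t ^ 2
    unfold trJ
    rw [hPS]
    have h3 := ODET.pw_xg H (z := z) hY hC.isOpen hmin hYG hST (hκR.trans
      (eps0_le.trans (by norm_num))) hr (hs.le Y hr)
    have h4 : 0 ≤ eS T w Y S.starProjection := tilt_nonneg S (planeOf T w Y)
    rw [hdim] at h3
    rw [xg_zeF H]
    refine h3.trans ?_
    have h6 : (60 + 3 * (Module.finrank ℝ E : ℝ)) ≤ cB m (Module.finrank ℝ E) := by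
      unfold cB; linarith
    have h6' : (m : ℝ) ≤ cB m (Module.finrank ℝ E) := by
      unfold cB; linarith
    have h7 : (κ * ‖co T Y‖) ^ 2 = κ ^ 2 * ‖co T Y‖ ^ 2 := by ring
    have h8 : (κ * t) ^ 2 = κ ^ 2 * t ^ 2 := by ring
    rw [h7, h8]
    have h9 : (m : ℝ) * (κ ^ 2 * t ^ 2) ≤ cB m (Module.finrank ℝ E) * κ ^ 2 * t ^ 2 := by
      calc (m : ℝ) * (κ ^ 2 * t ^ 2) ≤ cB m (Module.finrank ℝ E) * (κ ^ 2 * t ^ 2) := by gcongr
        _ = _ := by ring
    refine add_le_add ?_ h9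
    gcongr
  · -- p4
    filter_upwards [key] with Y h1 h2
    obtain ⟨S, hST, hS, hPS, hY, hYG, hr, hu1⟩ := h1 h2
    show |radF T w h₁ z t P Y - (vp T w z Y)⁻¹ * ‖rh T w h₁ z Y - P Y (rh T w h₁ z Y)‖ ^ 2| ≤
      cB m (Module.finrank ℝ E) * κ * ‖co T Y‖ * √(aX T w z Y) *
        √(‖rh T w h₁ z Y - P Y (rh T w h₁ z Y)‖ ^ 2) +
      (if aX T w z Y / t ^ 2 < 1 / 4 then cB m (Module.finrank ℝ E) * κ ^ 2 * t ^ 4 *
        (eS T w Y (P Y) + κ ^ 2 * ‖co T Y‖ ^ 2) else 0)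
    rw [hsq, Real.sqrt_sq (norm_nonneg _)]
    unfold radF
    rw [hPS]
    have h3 := abs_rad_sub_le H (z := z) hY ht (hs.le Y hr) hST
    have h00 : 0 ≤ eS T w Y S.starProjection := tilt_nonneg S (planeOf T w Y)
    have h6 : (8 : ℝ) ≤ cB m (Module.finrank ℝ E) := by unfold cB; linarith
    refine h3.trans (add_le_add ?_ ?_)
    · calc 4 * (κ * ‖co T Y‖) * ‖XX T w z Y‖ * ‖co S (rh T w h₁ z Y)‖ =
            4 * (κ * ‖co T Y‖ * ‖XX T w z Y‖ * ‖co S (rh T w h₁ z Y)‖) := by ring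
        _ ≤ cB m (Module.finrank ℝ E) *
            (κ * ‖co T Y‖ * ‖XX T w z Y‖ * ‖co S (rh T w h₁ z Y)‖) := by gcongr; linarith
        _ = _ := by
            have h9 : ‖co S (rh T w h₁ z Y)‖ =
              ‖rh T w h₁ z Y - S.starProjection (rh T w h₁ z Y)‖ := rfl
            rw [h9]; ring
    · unfold aX
      split_ifs with hc
      · calc 8 * (κ * t) ^ 2 * ‖XX T w z Y‖ ^ 2 *
              (eS T w Y S.starProjection + (κ * ‖co T Y‖) ^ 2) ≤
              8 * (κ * t) ^ 2 * t ^ 2 *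
              (eS T w Y S.starProjection + (κ * ‖co T Y‖) ^ 2) := by gcongr
          _ = 8 * (κ ^ 2 * t ^ 4 * (eS T w Y S.starProjection + κ ^ 2 * ‖co T Y‖ ^ 2)) := by ring
          _ ≤ cB m (Module.finrank ℝ E) *
              (κ ^ 2 * t ^ 4 * (eS T w Y S.starProjection + κ ^ 2 * ‖co T Y‖ ^ 2)) := by gcongr
          _ = _ := by ring
      · exact le_rfl
  · -- p5
    filter_upwards [key] with Y h1 h2
    obtain ⟨S, hST, hS, hPS, hY, hYG, hr, hu1⟩ := h1 h2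
    show |⟪om T w Y, P Y (xg T w z Y - rh T w h₁ z Y)⟫| ≤
      cB m (Module.finrank ℝ E) * κ * ‖co T Y‖ ^ 2 * √(aX T w z Y)
    rw [hsq, hPS]
    have h3 := abs_inner_om_le H hY z S
    have h6 : (5 : ℝ) ≤ cB m (Module.finrank ℝ E) := by unfold cB; linarith
    refine h3.trans ?_
    gcongr
  · -- p6
    filter_upwards [key] with Y h1 h2
    obtain ⟨S, hST, hS, hPS, hY, hYG, hr, hu1⟩ := h1 h2
    show |⟪rh T w h₁ z Y - P Y (rh T w h₁ z Y), xg T w z Y - P Y (xg T w z Y)⟫| ≤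
      cB m (Module.finrank ℝ E) * aX T w z Y * (eS T w Y (P Y) + κ ^ 2 * ‖co T Y‖ ^ 2)
    rw [hPS]
    have h3 := abs_inner_co_rh_xg_le H hY z hST
    have h4 : 0 ≤ eS T w Y S.starProjection := tilt_nonneg S (planeOf T w Y)
    have h6 : (6 : ℝ) ≤ cB m (Module.finrank ℝ E) := by unfold cB; linarith
    refine h3.trans ?_
    have h7 : (κ * ‖co T Y‖) ^ 2 = κ ^ 2 * ‖co T Y‖ ^ 2 := by ring
    rw [h7]
    unfold aX
    gcongr
  · -- p8
    filter_upwards [key] with Y h1 h2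
    obtain ⟨S, hST, hS, hPS, hY, hYG, hr, hu1⟩ := h1 h2
    show |tau m T w z t Y| ≤ cB m (Module.finrank ℝ E) * κ ^ 2 * t ^ 2
    have h3 := (ODET.pw_ze H (z := z) hY hC.isOpen hmin hYG hST ht hκR hr (hs.le Y hr)
      (hs.flat Y)).2
    rw [hdim] at h3
    unfold tau
    rw [be_beT H]
    refine h3.trans ?_
    have h6 : ODET.cBe (Module.finrank ℝ E) m ≤ cB m (Module.finrank ℝ E) := by
      unfold cB ODET.cBe; linarith
    calc _ = ODET.cBe (Module.finrank ℝ E) m * (κ ^ 2 * t ^ 2) := by ring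
      _ ≤ cB m (Module.finrank ℝ E) * (κ ^ 2 * t ^ 2) := by gcongr
      _ = _ := by ring

end Vale.Agent.P214.ODEW
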