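import Vale.Agent.P214.ODEW.Final

/-!
# P214, block ODEW: one window in the form of `ABS.Ode`

`CylF.ode` : for an exact minimal reference graph, with
* `κ t ≤ eps0`, small slope (`Slp T w z κ t`), slab height `≤ 1`, `|u| ≤ σ t` on `{|XX| < t}`, `σ ≤ 1`;
* `σ (XeF + XuF) ≤ δ`;
* `2 t^{2-m} F_Σ(K) ≤ A κ t HF + δ` and `2 t^{2-m} F_Σ(K (c κ² t² - τ)) ≤ A κ t HF + δ`,
  `c = cB m (dim E)`;
the functions `HF, jF, aF, bF` satisfy `ABS.Ode (C κ) (C δ)`, `C = cO m (dim E) B A`.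
-/

open Set Filter Topology MeasureTheory Metric
open scoped RealInnerProductSpace ContDiff

set_option linter.all false

namespace Vale.Agent.P214.ODEW

open FV FM ODE

/-- the constant of `CylF.ode` -/
noncomputable def cO (m N : ℕ) (B A : ℝ) : ℝ := 40 * (1 + A) * (B ^ 2 * cB m N) ^ 2

lemma one_le_cB (m N : ℕ) : 50 ≤ cB m N := by
  unfold cB
  have h1 : (0 : ℝ) ≤ (N : ℝ) := Nat.cast_nonneg _
  have h2 : (0 : ℝ) ≤ (m : ℝ) := Nat.cast_nonneg _
  have h3 := cT_nonneg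
  linarith

/-- constants, `D = (B² c)²` -/
lemma consts {B c : ℝ} (hB : 1 ≤ B) (hc : 50 ≤ c) :
    50 ≤ (B ^ 2 * c) ^ 2 ∧ c ≤ (B ^ 2 * c) ^ 2 ∧ 50 * (B ^ 2 * c) ≤ (B ^ 2 * c) ^ 2 ∧
    c ^ 2 ≤ (B ^ 2 * c) ^ 2 ∧ B * (2 + 8 * c) ≤ 10 * (B ^ 2 * c) ^ 2 ∧
    (2 + c) * (B * c) ≤ 3 / 2 * (B ^ 2 * c) ^ 2 ∧ B * c ≤ B ^ 2 * c := by
  have hc0 : 0 ≤ c := by linarith
  have hB0 : 0 ≤ B := by linarith
  have hB2 : B ≤ B ^ 2 := by nlinarith
  have hBB : B * c ≤ B ^ 2 * c := mul_le_mul_of_nonneg_right hB2 hc0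
  have h1 : c ≤ B * c := le_mul_of_one_le_left hc0 hB
  have h1' : c ≤ B ^ 2 * c := h1.trans hBB
  have hBc : 50 ≤ B ^ 2 * c := hc.trans h1'
  have h0 : 0 ≤ B ^ 2 * c := by linarith
  have h2 : 50 * (B ^ 2 * c) ≤ (B ^ 2 * c) ^ 2 := by
    rw [sq (B ^ 2 * c)]; exact mul_le_mul_of_nonneg_right hBc h0
  have h3 : c * (B ^ 2 * c) ≤ (B ^ 2 * c) ^ 2 := by
    rw [sq (B ^ 2 * c)]; exact mul_le_mul_of_nonneg_right h1' h0
  have h4 : B * (2 + 8 * c) ≤ B * (10 * c) := mul_le_mul_of_nonneg_left (by linarith) hB0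
  refine ⟨by linarith, by linarith, h2, ?_, ?_, ?_, hBB⟩
  · exact pow_le_pow_left₀ hc0 h1' 2
  · calc B * (2 + 8 * c) ≤ B * (10 * c) := h4
      _ = 10 * (B * c) := by ring
      _ ≤ 10 * (B ^ 2 * c) ^ 2 := by linarith
  · calc (2 + c) * (B * c) ≤ (2 + c) * (B ^ 2 * c) :=
        mul_le_mul_of_nonneg_left hBB (by linarith)
      _ = 2 * (B ^ 2 * c) + c * (B ^ 2 * c) := by ring
      _ ≤ 3 / 2 * (B ^ 2 * c) ^ 2 := by linarith

lemma one_le_cO (m N : ℕ) {B A : ℝ} (hB : 1 ≤ B) (hA : 0 ≤ A) : 1 ≤ cO m N B A := by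
  obtain ⟨h1, -⟩ := consts hB (one_le_cB m N)
  unfold cO
  nlinarith [mul_nonneg hA (by linarith : 0 ≤ (B ^ 2 * cB m N) ^ 2)]

/-- the difference of `j` and `g` -/
lemma jg_real {B c x H j g X δ σ : ℝ} (hB : 0 ≤ B) (hc : 0 ≤ c) (hx0 : 0 ≤ x) (hx1 : x ≤ 1)
    (hH : 0 < H) (hg : 0 ≤ g) (hδ : 0 ≤ δ) (hσ : 0 ≤ σ) (hX : σ * X ≤ δ) (hgX : g ≤ B * X)
    (h2 : |j - g| ≤ 2 * B * c * x ^ 2 * H + c * σ * x * g) :
    |j - g| ≤ 2 * (B * c) * (x * H) + B * c * δ := by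
  have hxx : x ^ 2 ≤ x := by nlinarith
  have e1 : c * σ * x * g ≤ B * c * δ := by
    have : σ * g ≤ B * δ := by
      calc σ * g ≤ σ * (B * X) := mul_le_mul_of_nonneg_left hgX hσ
        _ = B * (σ * X) := by ring
        _ ≤ B * δ := mul_le_mul_of_nonneg_left hX hB
    calc c * σ * x * g = (c * x) * (σ * g) := by ring
      _ ≤ (c * 1) * (B * δ) := mul_le_mul (mul_le_mul_of_nonneg_left hx1 hc) this
          (by positivity) (by positivity)
      _ = _ := by ring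
  have e2 : 2 * B * c * x ^ 2 * H ≤ 2 * (B * c) * (x * H) := by
    calc 2 * B * c * x ^ 2 * H = (2 * B * c * H) * x ^ 2 := by ring
      _ ≤ (2 * B * c * H) * x := mul_le_mul_of_nonneg_left hxx (by positivity)
      _ = _ := by ring
  linarith

/-- the curvature term -/
lemma tau_real {c x a j g : ℝ} (hc : 0 ≤ c) (hx0 : 0 ≤ x) (hx1 : x ≤ 1) :
    -(c * (x * max (j - a) 0) + c * |j - g|) ≤ c * x ^ 2 * (a - g) := by
  have hxx : x ^ 2 ≤ x := by nlinarith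
  have m1 : j - a ≤ max (j - a) 0 := le_max_left _ _
  have m2 : 0 ≤ max (j - a) 0 := le_max_right _ _
  have m3 : g - a ≤ max (j - a) 0 + |j - g| := by
    have := neg_abs_le (j - g)
    linarith
  generalize max (j - a) 0 = M at *
  have m7 := abs_nonneg (j - g)
  generalize |j - g| = N at *
  have m4 : (c * x ^ 2) * (g - a) ≤ (c * x ^ 2) * (M + N) :=
    mul_le_mul_of_nonneg_left m3 (by positivity)
  have m5 : (c * M) * x ^ 2 ≤ (c * M) * x := mul_le_mul_of_nonneg_left hxx (by positivity)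
  have m6 : (c * N) * x ^ 2 ≤ (c * N) * 1 :=
    mul_le_mul_of_nonneg_left (hxx.trans hx1) (by positivity)
  linarith

/-- the area inequality, real part -/
lemma area_real {B c A x H b g j a F Fφ ta' δ : ℝ} (hB : 1 ≤ B) (hc : 50 ≤ c) (hA : 0 ≤ A)
    (hx0 : 0 ≤ x) (hx1 : x ≤ 1) (hH : 0 < H) (hδ : 0 ≤ δ)
    (e2 : |j - g| ≤ 2 * (B * c) * (x * H) + B * c * δ)
    (h3 : |ta' - (2 * (a - g) + 2 * b + F)| ≤
      4 * c * x * √(b * H) + 10 * B ^ 2 * c * x * (H + g))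
    (h4 : F = c * x ^ 2 * (a - g) - Fφ) (h4' : Fφ ≤ A * x * H + δ) :
    2 * (a - j) + 2 * b - (40 * (B ^ 2 * c) ^ 2 + A) * (x * H) -
        40 * (B ^ 2 * c) ^ 2 * (x * |j|) - 40 * (B ^ 2 * c) ^ 2 * (x * √(b * H)) -
        40 * (B ^ 2 * c) ^ 2 * (x * max (j - a) 0) - 40 * (B ^ 2 * c) ^ 2 * δ ≤ ta' := by
  obtain ⟨k1, k2, k3, k4, k5, k6, k7⟩ := consts hB hc
  have hc0 : 0 ≤ c := by linarith
  have hB0 : 0 ≤ B := by linarith
  have hBc0 : 0 ≤ B * c := by positivity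
  have htau := tau_real (a := a) (j := j) (g := g) hc0 hx0 hx1
  have hxH : 0 ≤ x * H := by positivity
  have e3 := abs_le.1 e2
  have f0 := (abs_le.1 h3).1
  have hs0 := Real.sqrt_nonneg (b * H)
  have hj0 := abs_nonneg j
  have hjj := le_abs_self j
  have hM0 : 0 ≤ max (j - a) 0 := le_max_right _ _
  have hN0 := abs_nonneg (j - g)
  have g5 : -(2 * |j - g|) ≤ 2 * (j - g) := by
    have := neg_abs_le (j - g); linarith
  rw [h4] at f0
  have hgj : g ≤ |j| + 2 * (B ^ 2 * c) * (x * H) + B ^ 2 * c * δ := by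
    have q1 : 2 * (B * c) * (x * H) ≤ 2 * (B ^ 2 * c) * (x * H) := by gcongr
    have q2 : B * c * δ ≤ B ^ 2 * c * δ := mul_le_mul_of_nonneg_right k7 hδ
    linarith [e3.1]
  have g3 : (2 + c) * |j - g| ≤ 3 * (B ^ 2 * c) ^ 2 * (x * H) + 2 * (B ^ 2 * c) ^ 2 * δ := by
    have q0 : 0 ≤ (B ^ 2 * c) ^ 2 * δ := by positivity
    calc (2 + c) * |j - g| ≤ (2 + c) * (2 * (B * c) * (x * H) + B * c * δ) :=
          mul_le_mul_of_nonneg_left e2 (by linarith)
      _ = 2 * ((2 + c) * (B * c)) * (x * H) + ((2 + c) * (B * c)) * δ := by ring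
      _ ≤ 2 * (3 / 2 * (B ^ 2 * c) ^ 2) * (x * H) + (3 / 2 * (B ^ 2 * c) ^ 2) * δ := by gcongr
      _ ≤ _ := by linarith
  have hC0 : 0 ≤ B ^ 2 * c := by positivity
  have e10 : 10 * B ^ 2 * c * x * (H + g) = 10 * (B ^ 2 * c) * (x * H) +
    10 * (B ^ 2 * c) * (x * g) := by ring
  rw [e10] at f0
  generalize √(b * H) = s at *
  generalize max (j - a) 0 = M at *
  generalize |j - g| = N at *
  generalize |j| = J at *
  have hD6 : (B ^ 2 * c) * (B ^ 2 * c) = (B ^ 2 * c) ^ 2 := by ring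
  generalize B ^ 2 * c = C at *
  generalize C ^ 2 = D at *
  have hD0 : 0 ≤ D := by linarith
  have g1 : 4 * c * x * s ≤ 40 * D * (x * s) := by
    calc 4 * c * x * s = (4 * c) * (x * s) := by ring
      _ ≤ (40 * D) * (x * s) := mul_le_mul_of_nonneg_right (by linarith) (by positivity)
  have k8 : x * g ≤ x * J + 2 * C * (x * H) + C * δ := by
    have h0 : 0 ≤ 2 * C * (x * H) + C * δ := by positivity
    calc x * g ≤ x * (J + 2 * C * (x * H) + C * δ) := mul_le_mul_of_nonneg_left hgj hx0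
      _ = x * J + x * (2 * C * (x * H) + C * δ) := by ring
      _ ≤ x * J + 1 * (2 * C * (x * H) + C * δ) := by gcongr
      _ = _ := by ring
  have g2 : 10 * C * (x * H) + 10 * C * (x * g) ≤ D * (x * H) + D * (x * J) +
      20 * D * (x * H) + 10 * D * δ := by
    have q1 : 10 * C * (x * H) ≤ D * (x * H) := mul_le_mul_of_nonneg_right (by linarith) hxH
    have q2 : 10 * C * (x * J) ≤ D * (x * J) :=
      mul_le_mul_of_nonneg_right (by linarith) (by positivity)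
    calc 10 * C * (x * H) + 10 * C * (x * g) ≤
        10 * C * (x * H) + 10 * C * (x * J + 2 * C * (x * H) + C * δ) := by gcongr
      _ = 10 * C * (x * H) + 10 * C * (x * J) + 20 * (C * C) * (x * H) + 10 * (C * C) * δ := by
          ring
      _ ≤ _ := by rw [hD6]; linarith
  have g4 : c * (x * M) ≤ D * (x * M) := mul_le_mul_of_nonneg_right k2 (by positivity)
  have p1 : 0 ≤ D * (x * H) := by positivity
  have p2 : 0 ≤ D * (x * J) := by positivity
  have p3 : 0 ≤ D * (x * M) := by positivity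
  have p4 : 0 ≤ D * δ := by positivity
  have p5 : 1 * δ ≤ D * δ := mul_le_mul_of_nonneg_right (by linarith) hδ
  linarith

/-- the real part of the argument -/
lemma ode_real {m N : ℕ} {B A κ t H j g a b F Fφ H' a' X δ σ : ℝ} (hB : 1 ≤ B) (hA : 0 ≤ A)
    (hκ : 0 ≤ κ) (ht : 0 < t) (hx1 : κ * t ≤ 1) (hH : 0 < H) (hb : 0 ≤ b) (hg : 0 ≤ g)
    (hδ : 0 ≤ δ) (hσ : 0 ≤ σ) (hσ1 : σ ≤ 1)
    (hX : σ * X ≤ δ) (hgX : g ≤ B * X) (hcs : j ^ 2 ≤ b * H)
    (h1 : |t * H' - 2 * j| ≤ cB m N * (3 * m + 9) * (κ * t) * H +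
      B * (2 + 8 * cB m N) * σ ^ 2 * X)
    (h2 : |j - g| ≤ 2 * B * cB m N * (κ * t) ^ 2 * H + cB m N * σ * (κ * t) * g)
    (h3 : |t * a' - (2 * (a - g) + 2 * b + F)| ≤
      4 * cB m N * (κ * t) * √(H * b) + 10 * B ^ 2 * cB m N * (κ * t) * (H + g))
    (h4 : F = cB m N * (κ * t) ^ 2 * (a - g) - Fφ) (h4' : Fφ ≤ A * (κ * t) * H + δ)
    (h5 : a - g ≤ A * (κ * t) * H + δ) :
    ABS.Ode (cO m N B A * κ) (cO m N B A * δ) t H j a b H' a' := by
  have hc50 := one_le_cB m N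
  have hcm : 3 * (m : ℝ) + 9 ≤ 2 * cB m N := by
    unfold cB
    have h1 : (0 : ℝ) ≤ (N : ℝ) := Nat.cast_nonneg _
    have h2 : (0 : ℝ) ≤ (m : ℝ) := Nat.cast_nonneg _
    have h3 := cT_nonneg
    linarith
  obtain ⟨k1, k2, k3, k4, k5, k6, k7⟩ := consts hB hc50
  have hcO : cO m N B A = 40 * (1 + A) * (B ^ 2 * cB m N) ^ 2 := rfl
  have hm : (0 : ℝ) ≤ (m : ℝ) := Nat.cast_nonneg _
  have hx0 : 0 ≤ κ * t := by positivity
  have hB0 : 0 ≤ B := by linarith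
  have hX0 : 0 ≤ X := le_of_mul_le_mul_left (by linarith : B * 0 ≤ B * X) (by linarith)
  have hc0 : 0 ≤ cB m N := by linarith
  have e2 := jg_real hB0 hc0 hx0 hx1 hH hg hδ hσ hX hgX h2
  rw [mul_comm H b] at h3
  have har := area_real hB hc50 hA hx0 hx1 hH hδ e2 h3 h4 h4'
  have eκ : cO m N B A * κ * t = cO m N B A * (κ * t) := by ring
  have hcO1 : 40 * (B ^ 2 * cB m N) ^ 2 ≤ cO m N B A := by
    rw [hcO]
    have : 0 ≤ A * (B ^ 2 * cB m N) ^ 2 := by positivity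
    linarith
  have hcOA : 40 * (B ^ 2 * cB m N) ^ 2 + A ≤ cO m N B A := by
    rw [hcO]
    have : A * 1 ≤ A * (B ^ 2 * cB m N) ^ 2 := mul_le_mul_of_nonneg_left (by linarith) hA
    have h0 : 0 ≤ A * (B ^ 2 * cB m N) ^ 2 := by positivity
    linarith
  have hs0 := Real.sqrt_nonneg (b * H)
  have hj0 := abs_nonneg j
  have hM0 : 0 ≤ max (j - a) 0 := le_max_right _ _
  have e3 := abs_le.1 e2
  have hBc0 : 0 ≤ B * cB m N := by positivity
  refine ⟨hH, hb, hcs, ?_, ?_, ?_⟩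
  · rw [eκ]
    generalize cO m N B A = O at *
    generalize cB m N = c at *
    generalize κ * t = x at *
    generalize (B ^ 2 * c) ^ 2 = D at *
    have hxH : 0 ≤ x * H := by positivity
    have f1 : c * (3 * m + 9) * x * H ≤ O * (x * H) := by
      calc c * (3 * m + 9) * x * H = (c * (3 * m + 9)) * (x * H) := by ring
        _ ≤ (c * (2 * c)) * (x * H) := by gcongr
        _ = 2 * c ^ 2 * (x * H) := by ring
        _ ≤ O * (x * H) := mul_le_mul_of_nonneg_right (by linarith) hxH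
    have f2 : B * (2 + 8 * c) * σ ^ 2 * X ≤ O * δ := by
      have g2 : 0 ≤ B * (2 + 8 * c) := by positivity
      calc B * (2 + 8 * c) * σ ^ 2 * X = B * (2 + 8 * c) * (σ * (σ * X)) := by ring
        _ ≤ B * (2 + 8 * c) * (1 * δ) := by gcongr
        _ = (B * (2 + 8 * c)) * δ := by ring
        _ ≤ O * δ := mul_le_mul_of_nonneg_right (by linarith) hδ
    linarith [h1]
  · refine le_trans (le_of_eq_of_le (b := 2 * (a - j) + 2 * b - cO m N B A * (κ * t * H) -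
        cO m N B A * (κ * t * |j|) - cO m N B A * (κ * t * √(b * H)) -
        cO m N B A * (κ * t * max (j - a) 0) - cO m N B A * δ) (by ring) ?_) har
    generalize cO m N B A = O at *
    generalize (B ^ 2 * cB m N) ^ 2 = D at *
    generalize κ * t = x at *
    have q1 : (40 * D + A) * (x * H) ≤ O * (x * H) :=
      mul_le_mul_of_nonneg_right hcOA (by positivity)
    have q2 : 40 * D * (x * |j|) ≤ O * (x * |j|) :=
      mul_le_mul_of_nonneg_right hcO1 (by positivity)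
    have q3 : 40 * D * (x * √(b * H)) ≤ O * (x * √(b * H)) :=
      mul_le_mul_of_nonneg_right hcO1 (by positivity)
    have q4 : 40 * D * (x * max (j - a) 0) ≤ O * (x * max (j - a) 0) :=
      mul_le_mul_of_nonneg_right hcO1 (by positivity)
    have q5 : 40 * D * δ ≤ O * δ := mul_le_mul_of_nonneg_right hcO1 hδ
    linarith
  · rw [eκ]
    have hxH : 0 ≤ κ * t * H := by positivity
    have r1 : 2 * (B * cB m N) * (κ * t * H) ≤ (B ^ 2 * cB m N) ^ 2 * (κ * t * H) :=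
      mul_le_mul_of_nonneg_right (by linarith) hxH
    have r2 : B * cB m N * δ ≤ (B ^ 2 * cB m N) ^ 2 * δ :=
      mul_le_mul_of_nonneg_right (by linarith) hδ
    generalize cO m N B A = O at *
    generalize (B ^ 2 * cB m N) ^ 2 = D at *
    generalize κ * t = x at *
    have q1 : (40 * D + A) * (x * H) ≤ O * (x * H) := mul_le_mul_of_nonneg_right hcOA hxH
    have q5 : 40 * D * δ ≤ O * δ := mul_le_mul_of_nonneg_right hcO1 hδ
    have p1 : 50 * (x * H) ≤ D * (x * H) := mul_le_mul_of_nonneg_right k1 hxH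
    have p5 : 50 * δ ≤ D * δ := mul_le_mul_of_nonneg_right k1 hδ
    linarith [e3.1]

/-! ### Fermi coordinates -/

variable {E : Type*} [NormedAddCommGroup E] [InnerProductSpace ℝ E] [FiniteDimensional ℝ E]
  [MeasurableSpace E] [BorelSpace E]

variable {m Q : ℕ} {T : Submodule ℝ E} {w : E → E} {ε κ h₁ : ℝ} {G : Set E} {h : ℝ}
  {ν : Measure E} {P : E → E →L[ℝ] E} {z : E} {k k' K : ℝ → ℝ} {t R B σ A δ : ℝ}

/-- **One window.** -/
theorem CylF.ode (H : Adm T w ε κ h₁) (hC : CylF m T w h₁ G h ν P) (hmin : MinimalOver T w G)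
    (hh : h ≤ 1) (hκt : κ * t ≤ eps0) (hs : Slp T w z κ t) (hG : BallIn T G z R) (hk : KB k k' K B) (ht : 0 < t)
    (htR : t < R) (hσ : 0 ≤ σ) (hσ1 : σ ≤ 1)
    (hu : ∀ᵐ Y ∂ν, aX T w z Y < t ^ 2 → ‖co T Y‖ ≤ σ * t) (hA : 0 ≤ A) (hδ : 0 ≤ δ)
    (hX : σ * (XeF m T w z P ν t + XuF m T w z ν t) ≤ δ)
    (hF : 2 * t ^ (2 - (m : ℤ)) * FSig m Q T w ν P (fun x => K (aX T w z x / t ^ 2)) ≤
      A * (κ * t) * HF m T w z k ν t + δ)
    (hFt : 2 * t ^ (2 - (m : ℤ)) * FSig m Q T w ν P (fun x => K (aX T w z x / t ^ 2) *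
      (cB m (Module.finrank ℝ E) * (κ * t) ^ 2 - tau m T w z t x)) ≤
      A * (κ * t) * HF m T w z k ν t + δ)
    (hpos : 0 < HF m T w z k ν t) :
    DifferentiableAt ℝ (HF m T w z k ν) t ∧ DifferentiableAt ℝ (aF m Q T w z K ν) t ∧
    ABS.Ode (cO m (Module.finrank ℝ E) B A * κ) (cO m (Module.finrank ℝ E) B A * δ) t
      (HF m T w z k ν t) (jF m T w h₁ z K P ν t) (aF m Q T w z K ν t) (bF m T w h₁ z k P ν t)
      (deriv (HF m T w z k ν) t) (deriv (aF m Q T w z K ν) t) := by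
  have hκ := H.ref.knn
  have hGt : BallIn T G z t := fun x hx hx2 => hG x hx (hx2.trans htR.le)
  have hκt1 : κ * t ≤ 1 := hκt.trans (eps0_le.trans (by norm_num))
  have hu' : ∀ᵐ Y ∂ν, aX T w z Y < t ^ 2 → ‖co T Y‖ ≤ t := by
    filter_upwards [hu] with Y h1 h2
    exact (h1 h2).trans (by nlinarith)
  obtain ⟨d1, h1⟩ := CylF.err_height H hC hmin hh hκt hs hG hk ht htR hσ hσ1 hu
  obtain ⟨d2, h3⟩ := CylF.area_ineq (Q := Q) H hC hmin hh hκt hs hG hk ht htR hu'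
  have h2 := CylF.abs_jF_sub_gF_le H hC hmin hh hκt hs hG hk ht htR hσ hu
  have hg := CylF.gF_le H hC hmin hh hκt hs hG hk ht htR
  have hcs := hC.cs H hk.kern ht hGt
  have hg0 := hC.gF_nonneg (z := z) H hk.kern ht
  have hb0 := hC.bF_nonneg (z := z) H hk.kern ht
  have hXe : 0 ≤ XeF m T w z P ν t := by
    unfold XeF
    refine mul_nonneg (by positivity) (integral_nonneg_of_ae ?_)
    exact ae_restrict_of_ae hC.eP_nonneg
  have hXu : 0 ≤ XuF m T w z ν t := by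
    unfold XuF
    exact mul_nonneg (by positivity) (integral_nonneg fun Y => sq_nonneg _)
  have hB0 : 0 ≤ B := zero_le_one.trans hk.one
  have haF := hC.aF_eq H (Q := Q) hk.kern ht hGt
  have hsp := hC.FSig_tau H (m := m) (Q := Q) hk.kern ht hGt
    (cB m (Module.finrank ℝ E) * (κ * t) ^ 2)
  refine ⟨d1, d2, ode_real (m := m) (N := Module.finrank ℝ E) (B := B) (A := A)
    (g := gF m T w z K P ν t) (X := XeF m T w z P ν t + XuF m T w z ν t) (σ := σ)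
    (F := 2 * t ^ (2 - (m : ℤ)) *
      FSig m Q T w ν P (fun x => K (aX T w z x / t ^ 2) * tau m T w z t x))
    (Fφ := 2 * t ^ (2 - (m : ℤ)) * FSig m Q T w ν P (fun x => K (aX T w z x / t ^ 2) *
      (cB m (Module.finrank ℝ E) * (κ * t) ^ 2 - tau m T w z t x)))
    hk.one hA hκ ht hκt1 hpos hb0 hg0 hδ hσ hσ1 hX ?_ hcs h1 h2 h3 ?_ hFt ?_⟩
  · have : B * XeF m T w z P ν t ≤ B * (XeF m T w z P ν t + XuF m T w z ν t) := by
      gcongr; linarith
    linarith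
  · rw [hsp, haF]; ring
  · rw [haF]; linarith

end Vale.Agent.P214.ODEW
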