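import Vale.Agent.P214.ODEW.Abs

/-!
# P214, block ODEW: the curved ODE with integrated error bounds (abstract layer)

* `err_height` : the error in `t H' = 2 j + e₁`.
* `radial_le` : `∫ k c1` against `b`.
* `abs_outer_sub_tilt_le` : `|j - g| ≤ C κ t σ g + C κ² t² H`.
* `err_bulk` : the bulk error of the mass.
-/

open Set Filter Topology MeasureTheory Metric

set_option linter.all false

namespace Vale.Agent.P214.ODEW

open Vale.Agent.P214.ODE

variable {α : Type*} [MeasurableSpace α] {F : Fld α} {ν : Measure α} {m : ℕ}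
  {κ c B t σ : ℝ} {k k' K : ℝ → ℝ}

/-- **Height error.** -/
theorem BD.err_height (h : BD F ν m κ c t) (hk : KB k k' K B) (ht : 0 < t)
    (hσ : 0 ≤ σ) (hσ1 : σ ≤ 1)
    (hu : ∀ᵐ y ∂ν, F.r2 y < t ^ 2 → F.un y ≤ σ * t) :
    |t ^ (-(m : ℤ)) * ∫ y, (k (F.r2 y / t ^ 2) * (F.oo y * (F.trX y - m * F.vp y)) +
      2 * (k (F.r2 y / t ^ 2) * F.c2 y) -
      2 * k' (F.r2 y / t ^ 2) / t ^ 2 * (F.oo y * F.c3 y)) ∂ν| ≤
      (c * (3 * m + 9) * (κ * t)) * Hf F ν m k t +
      (B * (2 + 8 * c) * σ ^ 2) * (Xe F ν m t + Xu F ν m t) := by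
  have key := h.dom hk ht (a := c * (3 * m + 9) * (κ * t)) (a' := 0)
    (b := B * (2 + 8 * c) * σ ^ 2)
    (W := fun y => k (F.r2 y / t ^ 2) * (F.oo y * (F.trX y - m * F.vp y)) +
      2 * (k (F.r2 y / t ^ 2) * F.c2 y) -
      2 * k' (F.r2 y / t ^ 2) / t ^ 2 * (F.oo y * F.c3 y)) ?_
  · simpa using key
  · filter_upwards [h.enn, h.ele, h.unn,
      h.oo1, h.oo2, h.vp1, h.vp2,
      h.vp3, h.p3, h.p5, h.p6, hu]
      with y h1 h2 h3 h4 h5 h6 h7 h8 h9 h10 h11 h12
    by_cases hy : F.r2 y < t ^ 2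
    · have hs : 0 ≤ F.r2 y / t ^ 2 := div_nonneg (h.r2nn y) (by positivity)
      have := pt_height (m := m) h.κ0 h.c0 ht h.κt hσ hσ1 (hk.kern.nonneg _) (hk.kB _ hs)
        (hk.k'B _ hs) (h.r2nn y) hy (h1 hy) (h2 hy) (h3 hy) (h12 hy) (h4 hy) (h5 hy) (h6 hy)
        (h7 hy) (h8 hy) (h9 hy) (h10 hy) (h11 hy)
      simp only [hy, if_true, zero_mul, add_zero]
      exact this
    · have hs : 1 ≤ F.r2 y / t ^ 2 := by
        rw [le_div_iff₀ (by positivity)]; linarith [not_lt.1 hy]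
      simp only [hy, if_false, hk.kern.pk.zero _ hs, hk.kern.pk.zero' hs]
      simp

/-- `X ≤ p A + B / p` for all `p > 0` gives `X ≤ 2 √(A B)` -/
lemma le_sqrt_of_forall {X A B : ℝ} (hA : 0 ≤ A) (hB : 0 ≤ B)
    (h : ∀ p : ℝ, 0 < p → X ≤ p * A + B / p) : X ≤ 2 * √(A * B) := by
  rcases hA.eq_or_lt with hA0 | hA0
  · rw [← hA0]
    simp only [zero_mul, Real.sqrt_zero, mul_zero]
    -- `X ≤ B / p` for all `p`
    by_contra hX
    rw [not_le] at hX
    have h1 := h (B / X + 1) (by positivity)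
    rw [← hA0, mul_zero, zero_add, le_div_iff₀ (by positivity)] at h1
    have h2 : X * (B / X + 1) = B + X := by field_simp
    linarith
  rcases hB.eq_or_lt with hB0 | hB0
  · rw [← hB0]
    simp only [mul_zero, Real.sqrt_zero]
    by_contra hX
    rw [not_le] at hX
    have h1 := h (X / (2 * A)) (by positivity)
    rw [← hB0, zero_div, add_zero] at h1
    have h2 : X / (2 * A) * A = X / 2 := by field_simp
    linarith
  · have hp : 0 < √(B / A) := Real.sqrt_pos.2 (by positivity)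
    have h1 := h _ hp
    have h2 : √(B / A) * A = √(A * B) := by
      rw [← Real.sqrt_sq hA0.le, ← Real.sqrt_mul (by positivity)]
      congr 1
      rw [Real.sqrt_sq hA0.le]
      field_simp
    have h3 : B / √(B / A) = √(A * B) := by
      rw [div_eq_iff hp.ne', ← Real.sqrt_mul (by positivity)]
      rw [show A * B * (B / A) = B ^ 2 by field_simp, Real.sqrt_sq hB0.le]
    rw [h2, h3] at h1
    linarith

lemma BD.Hf_nonneg (h : BD F ν m κ c t) (hk : KB k k' K B) (ht : 0 < t) :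
    0 ≤ Hf F ν m k t := by
  refine kint_nonneg ht ?_
  filter_upwards [h.vp1, h.oo1] with y h1 h2
  by_cases hy : F.r2 y < t ^ 2
  · have a1 := h1 hy
    have a2 : 0 ≤ F.oo y := (sq_nonneg _).trans (h2 hy)
    have a3 := hk.kern.nonneg (F.r2 y / t ^ 2)
    positivity
  · rw [hk.kern.pk.zero _ (by rw [le_div_iff₀ (by positivity)]; linarith [not_lt.1 hy]), zero_mul]

lemma BD.Bf_nonneg (h : BD F ν m κ c t) (hk : KB k k' K B) (ht : 0 < t) :
    0 ≤ Bf F ν m k t := by
  refine kint_nonneg ht ?_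
  filter_upwards [h.vp1, h.rrnn] with y h1 h2
  by_cases hy : F.r2 y < t ^ 2
  · have a1 := h1 hy
    have a2 := h2 hy
    have a3 := hk.kern.nonneg (F.r2 y / t ^ 2)
    positivity
  · rw [hk.kern.pk.zero _ (by rw [le_div_iff₀ (by positivity)]; linarith [not_lt.1 hy]), zero_mul]

lemma BD.Gf_nonneg (h : BD F ν m κ c t) (hk : KB k k' K B) (ht : 0 < t) :
    0 ≤ Gf F ν m K t := by
  refine kint_nonneg ht ?_
  filter_upwards [h.enn] with y h1
  by_cases hy : F.r2 y < t ^ 2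
  · exact mul_nonneg (hk.kern.K_nonneg _) (h1 hy)
  · rw [hk.kern.pK.zero _ (by rw [le_div_iff₀ (by positivity)]; linarith [not_lt.1 hy]), zero_mul]

lemma BD.intB (h : BD F ν m κ c t) (hk : KB k k' K B) (ht : 0 < t) :
    Integrable (fun y => k (F.r2 y / t ^ 2) * ((F.vp y)⁻¹ * F.rr y)) ν := by
  have hm : AEStronglyMeasurable (fun y => (F.vp y)⁻¹ * F.rr y) ν := h.mvp.inv₀.mul h.mrr
  refine h.integrable hk.kern.pk.continuous hk.kern.pk.zero hm (C := 2 * (c * t ^ 2)) ht ?_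
  filter_upwards [h.vp1, h.rrnn, h.rrle]
    with y h1 h2 h3 hy
  have a1 := h1 hy; have a2 := h2 hy; have a3 := h3 hy
  have a4 : (F.vp y)⁻¹ ≤ 2 := by
    rw [inv_le_comm₀ (by linarith) (by norm_num)]; linarith
  have a5 : 0 ≤ (F.vp y)⁻¹ := by positivity
  rw [abs_of_nonneg (by positivity)]
  have := h.c0
  have a6 : F.rr y ≤ c * t ^ 2 := a3.trans (by gcongr)
  gcongr

lemma BD.exists_abs_c1_le (h : BD F ν m κ c t) (ht : 0 < t) :
    ∃ C, ∀ᵐ y ∂ν, F.r2 y < t ^ 2 → |F.c1 y| ≤ C := by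
  refine ⟨2 * (c * t ^ 2) + (c * κ * 1 * t * √(c * t ^ 2) +
    c * κ ^ 2 * t ^ 4 * (m + κ ^ 2 * 1)), ?_⟩
  filter_upwards [h.vp1, h.rrnn, h.rrle, h.p4, h.unn, h.unle, h.enn, h.ele]
    with y h1 h2 h3 h4 h5 h6 h7 h8 hy
  have a1 := h1 hy; have a2 := h2 hy; have a3 := h3 hy; have a7 := h4 hy; have a8 := h5 hy
  have a9 := h6 hy; have a12 := h7 hy; have a13 := h8 hy
  have hc := h.c0
  have hκ := h.κ0
  have a4 : (F.vp y)⁻¹ ≤ 2 := by
    rw [inv_le_comm₀ (by linarith) (by norm_num)]; linarith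
  have a5 : 0 ≤ (F.vp y)⁻¹ := by positivity
  have a6 : F.rr y ≤ c * t ^ 2 := a3.trans (by gcongr)
  have a10 : √(F.r2 y) ≤ t := by
    rw [Real.sqrt_le_left ht.le]; exact hy.le
  have a11 : √(F.rr y) ≤ √(c * t ^ 2) := Real.sqrt_le_sqrt a6
  have a14 : F.un y ^ 2 ≤ 1 := by nlinarith
  have a15 : (if F.r2 y / t ^ 2 < 1 / 4 then c * κ ^ 2 * t ^ 4 * (F.e y + κ ^ 2 * F.un y ^ 2)
      else 0) ≤ c * κ ^ 2 * t ^ 4 * (m + κ ^ 2 * 1) := by
    split_ifs
    · gcongr
    · positivity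
  calc |F.c1 y| = |(F.vp y)⁻¹ * F.rr y + (F.c1 y - (F.vp y)⁻¹ * F.rr y)| := by congr 1; ring
    _ ≤ |(F.vp y)⁻¹ * F.rr y| + |F.c1 y - (F.vp y)⁻¹ * F.rr y| := abs_add_le _ _
    _ ≤ 2 * (c * t ^ 2) + (c * κ * F.un y * √(F.r2 y) * √(F.rr y) +
        c * κ ^ 2 * t ^ 4 * (m + κ ^ 2 * 1)) := by
        refine add_le_add ?_ (a7.trans (add_le_add le_rfl a15))
        rw [abs_of_nonneg (by positivity)]
        gcongr
    _ ≤ _ := by gcongr

/-- the radial term -/
theorem BD.radial_le (h : BD F ν m κ c t) (hk : KB k k' K B) (ht : 0 < t) :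
    |kint F ν (-(m : ℤ)) k F.c1 t - Bf F ν m k t| ≤
      2 * c * (κ * t) * √(Hf F ν m k t * Bf F ν m k t) +
      2 * c * B ^ 2 * (κ * t) ^ 2 * (Hf F ν m k t + Gf F ν m K t) := by
  have hc := h.c0
  have hκ := h.κ0
  have hB0 : 0 ≤ B := zero_le_one.trans hk.one
  obtain ⟨Cc, hCc⟩ := h.exists_abs_c1_le ht
  have i1 : Integrable (fun y => k (F.r2 y / t ^ 2) * F.c1 y) ν :=
    h.integrable hk.kern.pk.continuous hk.kern.pk.zero h.mc1 ht hCc
  have i2 := h.intB hk ht
  have i3 := h.intH hk ht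
  have i4 := (h.intG hk ht).const_mul (t ^ 2)
  have hH := h.Hf_nonneg hk ht
  have hB := h.Bf_nonneg hk ht
  have h0 : 0 ≤ t ^ (-(m : ℤ)) := by positivity
  have eG : Gf F ν m K t = t ^ (-(m : ℤ)) * (t ^ 2 * ∫ y, K (F.r2 y / t ^ 2) * F.e y ∂ν) := by
    unfold Gf kint
    rw [show (2 - (m : ℤ)) = -(m : ℤ) + 2 by ring, zpow_add₀ ht.ne']
    norm_cast
    ring
  have key : ∀ p : ℝ, 0 < p → |kint F ν (-(m : ℤ)) k F.c1 t - Bf F ν m k t| -
      2 * c * B ^ 2 * (κ * t) ^ 2 * (Hf F ν m k t + Gf F ν m K t) ≤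
      p * (c * (κ * t) * Hf F ν m k t) + (c * (κ * t) * Bf F ν m k t) / p := by
    intro p hp
    have e1 : kint F ν (-(m : ℤ)) k F.c1 t - Bf F ν m k t =
        t ^ (-(m : ℤ)) * ∫ y, (k (F.r2 y / t ^ 2) * F.c1 y -
          k (F.r2 y / t ^ 2) * ((F.vp y)⁻¹ * F.rr y)) ∂ν := by
      unfold Bf kint
      rw [integral_sub i1 i2]; ring
    rw [e1, abs_mul, abs_of_nonneg h0, ← Real.norm_eq_abs]
    have e2 : ‖∫ y, (k (F.r2 y / t ^ 2) * F.c1 y -
          k (F.r2 y / t ^ 2) * ((F.vp y)⁻¹ * F.rr y)) ∂ν‖ ≤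
        ((p * (c * (κ * t))) * (∫ y, k (F.r2 y / t ^ 2) * (F.vp y * F.oo y) ∂ν) +
        (c * (κ * t) / p) * ∫ y, k (F.r2 y / t ^ 2) * ((F.vp y)⁻¹ * F.rr y) ∂ν) +
        ((2 * c * B ^ 2 * (κ * t) ^ 2) * (∫ y, k (F.r2 y / t ^ 2) * (F.vp y * F.oo y) ∂ν) +
        (2 * c * B ^ 2 * (κ * t) ^ 2) * ∫ y, t ^ 2 * (K (F.r2 y / t ^ 2) * F.e y) ∂ν) := by
      refine (norm_integral_le_of_norm_le (((i3.const_mul (p * (c * (κ * t)))).add
        (i2.const_mul (c * (κ * t) / p))).add ((i3.const_mul (2 * c * B ^ 2 * (κ * t) ^ 2)).add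
        (i4.const_mul (2 * c * B ^ 2 * (κ * t) ^ 2)))) ?_).trans (le_of_eq ?_)
      · filter_upwards [h.vp1, h.vp2, h.rrnn, h.p4, h.unn, h.oo1, h.enn]
          with y h1 h2 h3 h4 h5 h6 h7
        by_cases hy : F.r2 y < t ^ 2
        · have a1 := h1 hy; have a2 := h2 hy; have a3 := h3 hy; have a4 := h4 hy
          have a5 := h5 hy; have a6 := h6 hy; have a12 := h7 hy
          have hs : 0 ≤ F.r2 y / t ^ 2 := div_nonneg (h.r2nn y) (by positivity)
          have a10 : √(F.r2 y) ≤ t := by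
            rw [Real.sqrt_le_left ht.le]; exact hy.le
          have hkn := hk.kern.nonneg (F.r2 y / t ^ 2)
          have hKn := hk.kern.K_nonneg (F.r2 y / t ^ 2)
          have a7 : 0 < F.vp y := by linarith
          have a8 : 1 ≤ (F.vp y)⁻¹ := (one_le_inv₀ a7).2 a2
          have a9 := Real.sq_sqrt a3
          have a11 := Real.sqrt_nonneg (F.rr y)
          have hoo : 0 ≤ F.oo y := (sq_nonneg _).trans a6
          show ‖k (F.r2 y / t ^ 2) * F.c1 y - k (F.r2 y / t ^ 2) * ((F.vp y)⁻¹ * F.rr y)‖ ≤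
            ((p * (c * (κ * t))) * (k (F.r2 y / t ^ 2) * (F.vp y * F.oo y)) +
            (c * (κ * t) / p) * (k (F.r2 y / t ^ 2) * ((F.vp y)⁻¹ * F.rr y))) +
            ((2 * c * B ^ 2 * (κ * t) ^ 2) * (k (F.r2 y / t ^ 2) * (F.vp y * F.oo y)) +
            (2 * c * B ^ 2 * (κ * t) ^ 2) * (t ^ 2 * (K (F.r2 y / t ^ 2) * F.e y)))
          rw [← mul_sub, Real.norm_eq_abs, abs_mul, abs_of_nonneg hkn]
          have b1 : F.un y * √(F.rr y) ≤ p * (F.vp y * F.oo y) + (F.vp y)⁻¹ * F.rr y / p := by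
            have c1 : F.un y * √(F.rr y) ≤ p * F.un y ^ 2 / 2 + F.rr y / (2 * p) := by
              have c2 : 0 ≤ (p * F.un y - √(F.rr y)) ^ 2 := sq_nonneg _
              have c3 : p * (2 * (F.un y * √(F.rr y))) ≤ p * (p * F.un y ^ 2 + F.rr y / p) := by
                have : p * (p * F.un y ^ 2 + F.rr y / p) = p ^ 2 * F.un y ^ 2 + F.rr y := by
                  field_simp
                rw [this]
                nlinarith
              have c4 := le_of_mul_le_mul_left c3 hp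
              have c5 : F.rr y / (2 * p) = F.rr y / p / 2 := by field_simp
              rw [c5]; linarith
            have c2 : F.un y ^ 2 / 2 ≤ F.vp y * F.oo y := by nlinarith
            have c3 : F.rr y / (2 * p) ≤ (F.vp y)⁻¹ * F.rr y / p := by
              rw [div_le_div_iff₀ (by positivity) hp]
              nlinarith [mul_nonneg a3 hp.le, mul_nonneg (mul_nonneg (sub_nonneg.2 a8) a3) hp.le]
            calc _ ≤ p * (F.un y ^ 2 / 2) + F.rr y / (2 * p) := by linarith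
              _ ≤ _ := by gcongr
          have b2 : k (F.r2 y / t ^ 2) * (if F.r2 y / t ^ 2 < 1 / 4 then
              c * κ ^ 2 * t ^ 4 * (F.e y + κ ^ 2 * F.un y ^ 2) else 0) ≤
              (2 * c * B ^ 2 * (κ * t) ^ 2) * (k (F.r2 y / t ^ 2) * (F.vp y * F.oo y)) +
              (2 * c * B ^ 2 * (κ * t) ^ 2) * (t ^ 2 * (K (F.r2 y / t ^ 2) * F.e y)) := by
            split_ifs with hq
            · have q1 := pt_rad hκ hc ht h.κt hkn (hk.kB _ hs) hk.one (hk.Klow _ hs hq) a12 a6 a1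
              have q2 : 0 ≤ (c * B ^ 2 * (κ * t) ^ 2) * (t ^ 2 * (K (F.r2 y / t ^ 2) * F.e y)) := by
                positivity
              linarith
            · rw [mul_zero]; positivity
          calc k (F.r2 y / t ^ 2) * |F.c1 y - (F.vp y)⁻¹ * F.rr y|
              ≤ k (F.r2 y / t ^ 2) * (c * κ * F.un y * t * √(F.rr y) +
                (if F.r2 y / t ^ 2 < 1 / 4 then
                c * κ ^ 2 * t ^ 4 * (F.e y + κ ^ 2 * F.un y ^ 2) else 0)) := by
                refine mul_le_mul_of_nonneg_left (a4.trans (add_le_add ?_ le_rfl)) hkn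
                gcongr
            _ = (c * (κ * t)) * (k (F.r2 y / t ^ 2) * (F.un y * √(F.rr y))) +
                k (F.r2 y / t ^ 2) * (if F.r2 y / t ^ 2 < 1 / 4 then
                c * κ ^ 2 * t ^ 4 * (F.e y + κ ^ 2 * F.un y ^ 2) else 0) := by ring
            _ ≤ (c * (κ * t)) * (k (F.r2 y / t ^ 2) *
                (p * (F.vp y * F.oo y) + (F.vp y)⁻¹ * F.rr y / p)) + _ := by
                refine add_le_add ?_ b2
                gcongr
            _ = _ := by ring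
        · have hs : 1 ≤ F.r2 y / t ^ 2 := by
            rw [le_div_iff₀ (by positivity)]; linarith [not_lt.1 hy]
          simp [hk.kern.pk.zero _ hs, hk.kern.pK.zero _ hs]
      · have j1 : Integrable (fun y => (p * (c * (κ * t))) *
            (k (F.r2 y / t ^ 2) * (F.vp y * F.oo y)) +
            (c * (κ * t) / p) * (k (F.r2 y / t ^ 2) * ((F.vp y)⁻¹ * F.rr y))) ν :=
          (i3.const_mul _).add (i2.const_mul _)
        have j2 : Integrable (fun y => (2 * c * B ^ 2 * (κ * t) ^ 2) *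
            (k (F.r2 y / t ^ 2) * (F.vp y * F.oo y)) +
            (2 * c * B ^ 2 * (κ * t) ^ 2) * (t ^ 2 * (K (F.r2 y / t ^ 2) * F.e y))) ν :=
          (i3.const_mul _).add (i4.const_mul _)
        show ∫ y, (((p * (c * (κ * t))) * (k (F.r2 y / t ^ 2) * (F.vp y * F.oo y)) +
            (c * (κ * t) / p) * (k (F.r2 y / t ^ 2) * ((F.vp y)⁻¹ * F.rr y))) +
            ((2 * c * B ^ 2 * (κ * t) ^ 2) * (k (F.r2 y / t ^ 2) * (F.vp y * F.oo y)) +
            (2 * c * B ^ 2 * (κ * t) ^ 2) * (t ^ 2 * (K (F.r2 y / t ^ 2) * F.e y)))) ∂ν = _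
        rw [integral_add j1 j2, integral_add (i3.const_mul _) (i2.const_mul _),
          integral_add (i3.const_mul _) (i4.const_mul _), integral_const_mul, integral_const_mul,
          integral_const_mul, integral_const_mul]
    have e3 := mul_le_mul_of_nonneg_left e2 h0
    rw [integral_const_mul (t ^ 2)] at e3
    have e4 : t ^ (-(m : ℤ)) * (((p * (c * (κ * t))) *
        (∫ y, k (F.r2 y / t ^ 2) * (F.vp y * F.oo y) ∂ν) +
        (c * (κ * t) / p) * ∫ y, k (F.r2 y / t ^ 2) * ((F.vp y)⁻¹ * F.rr y) ∂ν) +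
        ((2 * c * B ^ 2 * (κ * t) ^ 2) * (∫ y, k (F.r2 y / t ^ 2) * (F.vp y * F.oo y) ∂ν) +
        (2 * c * B ^ 2 * (κ * t) ^ 2) *
          (t ^ 2 * ∫ y, K (F.r2 y / t ^ 2) * F.e y ∂ν))) =
        p * (c * (κ * t) * Hf F ν m k t) + (c * (κ * t) * Bf F ν m k t) / p +
        2 * c * B ^ 2 * (κ * t) ^ 2 * (Hf F ν m k t + Gf F ν m K t) := by
      rw [eG]
      unfold Hf Bf kint; ring
    rw [e4] at e3
    linarith
  have h1 := le_sqrt_of_forall (by positivity) (by positivity) key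
  have e3 : c * (κ * t) * Hf F ν m k t * (c * (κ * t) * Bf F ν m k t) =
      (c * (κ * t)) ^ 2 * (Hf F ν m k t * Bf F ν m k t) := by ring
  rw [e3, Real.sqrt_mul (by positivity), Real.sqrt_sq (by positivity)] at h1
  linarith

lemma BD.abs_trO_le (h : BD F ν m κ c t) (ht : 0 < t) :
    ∀ᵐ y ∂ν, F.r2 y < t ^ 2 → |F.trO y - F.e y| ≤ c * (κ * 1 * m + κ ^ 2 * 1 ^ 2) := by
  filter_upwards [h.p1, h.enn, h.ele,
    h.unn, h.unle] with y h1 h2 h3 h4 h5 hy
  have a1 := h1 hy; have a2 := h2 hy; have a3 := h3 hy; have a4 := h4 hy; have a5 := h5 hy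
  have hc := h.c0
  have hκ := h.κ0
  exact a1.trans (by gcongr)

/-- `|j - g|` is small -/
theorem BD.abs_outer_sub_tilt_le (h : BD F ν m κ c t) (hk : KB k k' K B) (ht : 0 < t)
    (hσ : 0 ≤ σ) (hu : ∀ᵐ y ∂ν, F.r2 y < t ^ 2 → F.un y ≤ σ * t) :
    |Jf F ν m K t - Gf F ν m K t| ≤
      (2 * B * c * (κ * t) ^ 2) * Hf F ν m k t + (c * σ * (κ * t)) * Gf F ν m K t := by
  have i1 : Integrable (fun y => K (F.r2 y / t ^ 2) * (F.trO y - F.e y)) ν :=
    h.integrable hk.kern.pK.continuous hk.kern.pK.zero (h.mtrO.sub h.me) ht (h.abs_trO_le ht)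
  have i2 := h.intG hk ht
  have i3 : Integrable (fun y => K (F.r2 y / t ^ 2) * F.trO y) ν := by
    refine (i1.add i2).congr (Eventually.of_forall fun y => ?_)
    show K (F.r2 y / t ^ 2) * (F.trO y - F.e y) + K (F.r2 y / t ^ 2) * F.e y = _
    ring
  have e1 : Jf F ν m K t - Gf F ν m K t = t ^ (-(m : ℤ)) *
      ∫ y, t ^ 2 * (K (F.r2 y / t ^ 2) * (F.trO y - F.e y)) ∂ν := by
    unfold Jf Gf kint
    rw [← mul_sub, ← integral_sub i3 i2, integral_const_mul, ← mul_assoc]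
    congr 1
    · rw [show (2 - (m : ℤ)) = -(m : ℤ) + 2 by ring, zpow_add₀ ht.ne']
      norm_cast
    · exact integral_congr_ae (Eventually.of_forall fun y => by ring)
  rw [e1]
  have key := h.dom hk ht (a := 2 * B * c * (κ * t) ^ 2) (a' := c * σ * (κ * t)) (b := 0)
    (W := fun y => t ^ 2 * (K (F.r2 y / t ^ 2) * (F.trO y - F.e y))) ?_
  · simpa using key
  · filter_upwards [h.enn, h.unn,
      h.oo1, h.vp1, h.p1, hu]
      with y h1 h3 h4 h6 h9 h12
    by_cases hy : F.r2 y < t ^ 2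
    · have a1 := h1 hy; have a3 := h3 hy; have a4 := h4 hy; have a6 := h6 hy; have a9 := h9 hy
      have a12 := h12 hy
      have hs : 0 ≤ F.r2 y / t ^ 2 := div_nonneg (h.r2nn y) (by positivity)
      have hK := hk.kern.K_nonneg (F.r2 y / t ^ 2)
      have hkn := hk.kern.nonneg (F.r2 y / t ^ 2)
      have hKk := hk.Kk _ hs
      have hc := h.c0
      have hκ := h.κ0
      have hB : 0 ≤ B := zero_le_one.trans hk.one
      have Ku : K (F.r2 y / t ^ 2) * F.un y ^ 2 ≤
          2 * B * (k (F.r2 y / t ^ 2) * (F.vp y * F.oo y)) := by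
        have h1 : K (F.r2 y / t ^ 2) * F.un y ^ 2 ≤ (B * k (F.r2 y / t ^ 2)) * F.oo y := by gcongr
        have h2 : 0 ≤ B * (k (F.r2 y / t ^ 2) * F.oo y) := by
          have : 0 ≤ F.oo y := (sq_nonneg _).trans a4
          positivity
        nlinarith
      simp only [zero_mul, add_zero]
      rw [abs_mul, abs_mul, abs_of_nonneg hK, abs_of_nonneg (show 0 ≤ t ^ 2 by positivity)]
      calc t ^ 2 * (K (F.r2 y / t ^ 2) * |F.trO y - F.e y|) ≤
            t ^ 2 * (K (F.r2 y / t ^ 2) * (c * (κ * F.un y * F.e y + κ ^ 2 * F.un y ^ 2))) := by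
            gcongr
        _ = (c * (κ * t) ^ 2) * (K (F.r2 y / t ^ 2) * F.un y ^ 2) +
            (c * κ * F.un y) * (t ^ 2 * (K (F.r2 y / t ^ 2) * F.e y)) := by ring
        _ ≤ (c * (κ * t) ^ 2) * (2 * B * (k (F.r2 y / t ^ 2) * (F.vp y * F.oo y))) +
            (c * κ * (σ * t)) * (t ^ 2 * (K (F.r2 y / t ^ 2) * F.e y)) := by
            gcongr
        _ = _ := by ring
    · have hs : 1 ≤ F.r2 y / t ^ 2 := by
        rw [le_div_iff₀ (by positivity)]; linarith [not_lt.1 hy]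
      simp only [hy, if_false, hk.kern.pk.zero _ hs, hk.kern.pK.zero _ hs]
      simp

/-- the bulk error of the mass -/
theorem BD.err_bulk (h : BD F ν m κ c t) (hk : KB k k' K B) (ht : 0 < t)
    (hu : ∀ᵐ y ∂ν, F.r2 y < t ^ 2 → F.un y ≤ t) :
    |t ^ (-(m : ℤ)) * ∫ y, (t ^ 2 * (K (F.r2 y / t ^ 2) * (F.ta y * F.e y)) +
      2 * t ^ 2 * (K (F.r2 y / t ^ 2) * (F.trZ y - (m + F.ta y - F.e y)))) ∂ν| ≤
      6 * B * c * (κ * t) * (Hf F ν m k t + Gf F ν m K t) := by
  have hc := h.c0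
  have hκ := h.κ0
  have hB1 := hk.one
  have hB : 0 ≤ B := zero_le_one.trans hB1
  have hκt := h.κt
  have hta := h.p8
  have key := h.dom hk ht (a := 6 * B * c * (κ * t)) (a' := 6 * B * c * (κ * t)) (b := 0)
    (W := fun y => t ^ 2 * (K (F.r2 y / t ^ 2) * (F.ta y * F.e y)) +
      2 * t ^ 2 * (K (F.r2 y / t ^ 2) * (F.trZ y - (m + F.ta y - F.e y)))) ?_
  · rw [zero_mul, add_zero] at key
    rw [mul_add]
    exact key
  · filter_upwards [h.enn, h.unn,
      h.oo1, h.vp1, h.p2, hta, hu]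
      with y h1 h3 h4 h6 h10 h11 h12
    by_cases hy : F.r2 y < t ^ 2
    · have a1 := h1 hy; have a3 := h3 hy; have a4 := h4 hy; have a6 := h6 hy
      have a10 := h10 hy; have a11 := h11 hy; have a12 := h12 hy
      have hs : 0 ≤ F.r2 y / t ^ 2 := div_nonneg (h.r2nn y) (by positivity)
      have hK := hk.kern.K_nonneg (F.r2 y / t ^ 2)
      have hkn := hk.kern.nonneg (F.r2 y / t ^ 2)
      have hKk := hk.Kk _ hs
      have hoo : 0 ≤ F.oo y := (sq_nonneg _).trans a4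
      have b1 := pt_area1 hκ hc ht hκt hK hkn hB hKk a1 a3 a12 a4 a6 a10
      have b0 : |t ^ 2 * (K (F.r2 y / t ^ 2) * (F.ta y * F.e y))| ≤
          (c * (κ * t)) * (t ^ 2 * (K (F.r2 y / t ^ 2) * F.e y)) := by
        rw [abs_mul, abs_mul, abs_mul, abs_of_nonneg hK, abs_of_nonneg a1,
          abs_of_nonneg (show 0 ≤ t ^ 2 by positivity)]
        have : |F.ta y| ≤ c * (κ * t) := a11.trans (by
          calc c * κ ^ 2 * t ^ 2 = c * ((κ * t) * (κ * t)) := by ring
            _ ≤ c * ((κ * t) * 1) := by gcongr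
            _ = _ := by ring)
        calc t ^ 2 * (K (F.r2 y / t ^ 2) * (|F.ta y| * F.e y)) ≤
            t ^ 2 * (K (F.r2 y / t ^ 2) * (c * (κ * t) * F.e y)) := by gcongr
          _ = _ := by ring
      have hg0 : 0 ≤ t ^ 2 * (K (F.r2 y / t ^ 2) * F.e y) := by positivity
      have hx : 0 ≤ κ * t := by positivity
      simp only [zero_mul, add_zero]
      refine (abs_add_le _ _).trans ?_
      have g2 : 0 ≤ (6 * c * (κ * t) * (B - 1)) * (t ^ 2 * (K (F.r2 y / t ^ 2) * F.e y)) := by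
        have : 0 ≤ B - 1 := by linarith
        positivity
      linarith
    · have hs : 1 ≤ F.r2 y / t ^ 2 := by
        rw [le_div_iff₀ (by positivity)]; linarith [not_lt.1 hy]
      simp only [hy, if_false, hk.kern.pk.zero _ hs, hk.kern.pK.zero _ hs]
      simp

/-- the kernel tilt is bounded by the energy in the ball -/
lemma BD.Gf_le (h : BD F ν m κ c t) (hk : KB k k' K B) (ht : 0 < t) :
    Gf F ν m K t ≤ B * Xe F ν m t := by
  have hB : 0 ≤ B := zero_le_one.trans hk.one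
  unfold Gf kint Xe
  rw [h.setIntegral]
  have i1 := h.intG hk ht
  have i2 : Integrable (fun y => if F.r2 y < t ^ 2 then F.e y else 0) ν := by
    refine h.integrableOn h.me (C := m) ?_
    filter_upwards [h.enn, h.ele] with y h1 h2 hy
    rw [abs_of_nonneg (h1 hy)]
    exact h2 hy
  have h0 : 0 ≤ t ^ (2 - (m : ℤ)) := by positivity
  calc _ ≤ t ^ (2 - (m : ℤ)) * (B * ∫ y, (if F.r2 y < t ^ 2 then F.e y else 0) ∂ν) := by
        gcongr
        rw [← integral_const_mul]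
        refine integral_mono_ae i1 (i2.const_mul B) ?_
        filter_upwards [h.enn] with y h1
        by_cases hy : F.r2 y < t ^ 2
        · have a1 := h1 hy
          have hs : 0 ≤ F.r2 y / t ^ 2 := div_nonneg (h.r2nn y) (by positivity)
          have := hk.KB _ hs
          simp only [hy, if_true]
          gcongr
        · have hs : 1 ≤ F.r2 y / t ^ 2 := by
            rw [le_div_iff₀ (by positivity)]; linarith [not_lt.1 hy]
          simp only [hy, if_false, hk.kern.pK.zero _ hs]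
          simp
    _ = _ := by ring

/-- the kernel mean of `|u|²` with the kernel `K` -/
lemma BD.kint_un_le (h : BD F ν m κ c t) (hk : KB k k' K B) (ht : 0 < t) :
    kint F ν (-(m : ℤ)) K (fun y => F.un y ^ 2) t ≤ 2 * B * Hf F ν m k t := by
  have hB : 0 ≤ B := zero_le_one.trans hk.one
  have i1 := (h.intH hk ht).const_mul (2 * B)
  unfold Hf kint
  have h0 : 0 ≤ t ^ (-(m : ℤ)) := by positivity
  have i2 : Integrable (fun y => K (F.r2 y / t ^ 2) * F.un y ^ 2) ν := by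
    refine h.integrable hk.kern.pK.continuous hk.kern.pK.zero (h.mun.pow 2) (C := 1) ht ?_
    filter_upwards [h.unn, h.unle] with y h1 h2 hy
    have a1 := h1 hy; have a2 := h2 hy
    show |F.un y ^ 2| ≤ 1
    rw [abs_of_nonneg (by positivity)]
    nlinarith
  calc _ ≤ t ^ (-(m : ℤ)) * (2 * B * ∫ y, k (F.r2 y / t ^ 2) * (F.vp y * F.oo y) ∂ν) := by
        gcongr
        rw [← integral_const_mul]
        refine integral_mono_ae i2 i1 ?_
        filter_upwards [h.oo1, h.vp1] with y h4 h6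
        by_cases hy : F.r2 y < t ^ 2
        · have a4 := h4 hy; have a6 := h6 hy
          have hs : 0 ≤ F.r2 y / t ^ 2 := div_nonneg (h.r2nn y) (by positivity)
          have hK := hk.kern.K_nonneg (F.r2 y / t ^ 2)
          have hkn := hk.kern.nonneg (F.r2 y / t ^ 2)
          have hKk := hk.Kk _ hs
          have hoo : 0 ≤ F.oo y := (sq_nonneg _).trans a4
          show K (F.r2 y / t ^ 2) * F.un y ^ 2 ≤ 2 * B * (k (F.r2 y / t ^ 2) * (F.vp y * F.oo y))
          have h1 : K (F.r2 y / t ^ 2) * F.un y ^ 2 ≤ (B * k (F.r2 y / t ^ 2)) * F.oo y := by gcongr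
          have h2 : 0 ≤ B * (k (F.r2 y / t ^ 2) * F.oo y) := by positivity
          nlinarith
        · have hs : 1 ≤ F.r2 y / t ^ 2 := by
            rw [le_div_iff₀ (by positivity)]; linarith [not_lt.1 hy]
          simp only [hk.kern.pK.zero _ hs, hk.kern.pk.zero _ hs]
          simp
    _ = _ := by ring

end Vale.Agent.P214.ODEW
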